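import Vale.Agent.P022E.GW.Defs

/-!
# P022G, block Sel: the relative tangent space at a curve (statements)
-/

set_option linter.all false

noncomputable section

namespace P022G.Sel

open NumberField
open Vale.Agent.P022
open Vale.Agent.P027M.S (Inert)
open Vale.Agent.P022D.Sel (M2 IsDec Ginf)
open Vale.Agent.P022E.GW (Ov Fb Gn Op Ur)

section

variable {R : Type} [CommRing R]

/-- the matrix of `ρ g` -/
abbrev mr (ρ : GQ →* GL (Fin 2) R) (g : GQ) : M2 R := ρ g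

/-- the cocycle condition for `ad ρ` -/
def Co (ρ : GQ →* GL (Fin 2) R) (c : GQ → M2 R) : Prop :=
  ∀ g h, c (g * h) = c g + mr ρ g * c h * mr ρ g⁻¹

/-- a relative tangent vector -/
structure TanR (ρ : GQ →* GL (Fin 2) R) (T Q : Finset ℕ) (D : ℕ → Set GQ)
    (c : GQ → M2 R) (a : ℕ → M2 R) : Prop where
  coc : Co ρ c
  opn : Op c
  unr : ∀ l : ℕ, l ∉ T → l ∉ Q → ∀ P : Ideal (𝓞 Qb), Ov l P → ∀ g, Inert P g → c g = 0
  loc : ∀ l ∈ T, ∀ g ∈ D l, c g = a l - mr ρ g * a l * mr ρ g⁻¹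
  zero : ∀ l ∉ T, a l = 0

/-- the set of relative tangent vectors -/
def TanS (ρ : GQ →* GL (Fin 2) R) (T Q : Finset ℕ) (D : ℕ → Set GQ) :
    Set ((GQ → M2 R) × (ℕ → M2 R)) := {z | TanR ρ T Q D z.1 z.2}

/-- the cocycles which are unramified outside `T` -/
def H1R (ρ : GQ →* GL (Fin 2) R) (T : Finset ℕ) : Set (GQ → M2 R) :=
  {c | Co ρ c ∧ Op c ∧ Ur T c}

/-- the local invariants at the places of `T` -/
def FxR (ρ : GQ →* GL (Fin 2) R) (T : Finset ℕ) (D : ℕ → Set GQ) : Set (ℕ → M2 R) :=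
  {a | (∀ l ∉ T, a l = 0) ∧ ∀ l ∈ T, ∀ g ∈ D l, mr ρ g * a l * mr ρ g⁻¹ = a l}

/-- open kernel, unramified outside `T`, decomposition groups at `T` -/
structure Lv (ρ : GQ →* GL (Fin 2) R) (T : Finset ℕ) (D : ℕ → Set GQ) : Prop where
  opn : IsOpen {g : GQ | ρ g = 1}
  h0 : 0 ∈ T
  h2 : 2 ∈ T
  dec : ∀ l ∈ T, IsDec l (D l)
  unr : ∀ l ∉ T, ∀ P : Ideal (𝓞 Qb), Ov l P → ∀ g, Inert P g → ρ g = 1

/-- `q` is a prime outside `A` with a regular Frobenius element in `σ ^ m U`, `m` odd -/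
def AuxR (ρ : GQ →* GL (Fin 2) R) (U : Subgroup GQ) (A : Finset ℕ) (σ : GQ) (q : ℕ) : Prop :=
  q.Prime ∧ q ∉ A ∧ ∃ (φ : GQ) (m : ℕ), IsFrob q φ ∧ Odd m ∧ φ⁻¹ * σ ^ m ∈ U ∧
    IsUnit (mr ρ φ).trace

/-- reduction modulo an ideal -/
def rd (J : Ideal R) (ρ : GQ →* GL (Fin 2) R) : GQ →* GL (Fin 2) (R ⧸ J) :=
  (Matrix.GeneralLinearGroup.map (Ideal.Quotient.mk J)).comp ρ

/-- the ideal generated by `t ^ N` -/
abbrev tI (t : R) (N : ℕ) : Ideal R := Ideal.span {t ^ N}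

/-- a nice curve: continuous, unramified outside `T`, determinant one, absolutely irreducible on
`Ginf`, with enough residually regular elements -/
structure Nice (t : R) (ρ : GQ →* GL (Fin 2) R) (T : Finset ℕ) (D : ℕ → Set GQ) : Prop where
  lv : ∀ N, Lv (rd (tI t N) ρ) T D
  det : ∀ g, (mr ρ g).det = 1
  irr : ∃ δ : R, δ ≠ 0 ∧ ∀ Z : M2 R, δ • Z ∈ Submodule.span R (mr ρ '' (Ginf : Set GQ))
  reg : ∃ s ∈ Ginf, IsUnit (mr ρ s).trace ∧ ∀ g ∈ Ginf, IsUnit (mr ρ g).trace ∨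
    (IsUnit (mr ρ (g * s)).trace ∧ IsUnit (mr ρ (g * s * s)).trace)

end

/-- **reciprocity** at primes with a regular Frobenius element -/
def RECR : Prop := ∀ (R : Type) [CommRing R] [Finite R] (ρ : GQ →* GL (Fin 2) R)
  (T Q : Finset ℕ) (D : ℕ → Set GQ) (P : ℕ → Ideal (𝓞 Qb)) (τ φ : ℕ → GQ)
  (c y : GQ → M2 R) (a : ℕ → M2 R), (2 : R) = 0 → Lv ρ T D →
  (∀ q ∈ Q, q ∉ T ∧ Ov q (P q) ∧ Gn q (P q) (τ q) ∧ Fb q (P q) (φ q) ∧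
    IsUnit (mr ρ (φ q)).trace) →
  TanR ρ T Q D c a → y ∈ H1R ρ T → ∑ q ∈ Q, (c (τ q) * y (φ q)).trace = 0

/-- **the lower bound** at a curve, for every large set of places -/
def LBA : Prop := ∀ (A : Type) [CommRing A] [IsDomain A] [IsDiscreteValuationRing A] [CharP A 2]
  (t : A) (ρ : GQ →* GL (Fin 2) A) (T : Finset ℕ) (D : ℕ → Set GQ), Irreducible t →
  Finite (A ⧸ tI t 1) → Nice t ρ T D →
  ∃ (T₀ : Finset ℕ) (D₀ : ℕ → Set GQ), T ⊆ T₀ ∧ (∀ l ∈ T, D₀ l = D l) ∧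
    (∀ l ∈ T₀, IsDec l (D₀ l)) ∧
    ∀ (T₁ : Finset ℕ) (D₁ : ℕ → Set GQ), T₀ ⊆ T₁ → (∀ l ∈ T₀, D₁ l = D₀ l) →
      (∀ l ∈ T₁, IsDec l (D₁ l)) → ∃ C : ℕ, ∀ N : ℕ,
        Nat.card (FxR (rd (tI t N) ρ) T₁ D₁) * Nat.card (A ⧸ tI t N) ^ 3 ≤
          C * Nat.card (H1R (rd (tI t N) ρ) T₁)

/-- **the output of the block** -/
def SELA : Prop := ∀ (A : Type) [CommRing A] [IsDomain A] [IsDiscreteValuationRing A] [CharP A 2]
  (t : A) (ρ : GQ →* GL (Fin 2) A) (T : Finset ℕ) (D : ℕ → Set GQ), Irreducible t →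
  Finite (A ⧸ tI t 1) → Nice t ρ T D →
  ∃ (T₁ : Finset ℕ) (C : ℕ), T ⊆ T₁ ∧ ∀ N : ℕ, ∃ (r : ℕ) (σ : Fin r → GQ) (U : Subgroup GQ),
    IsOpen (U : Set GQ) ∧ U.Normal ∧ (∀ g ∈ U, rd (tI t N) ρ g = 1) ∧
    (∀ i, σ i ∈ Ginf ∧ IsUnit (mr ρ (σ i)).trace) ∧
    ∀ q : Fin r → ℕ, Function.Injective q → (∀ i, AuxR ρ U T₁ (σ i) (q i)) →
      (TanS (rd (tI t N) ρ) T (Finset.univ.image q) D).Finite ∧
      Nat.card (TanS (rd (tI t N) ρ) T (Finset.univ.image q) D) ≤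
        C * Nat.card (A ⧸ tI t N) ^ (2 * r + 5)

/-! ### the steps -/

/-- finiteness -/
def FINR : Prop := ∀ (R : Type) [CommRing R] [Finite R] (ρ : GQ →* GL (Fin 2) R)
  (T : Finset ℕ), (2 : R) = 0 → IsOpen {g : GQ | ρ g = 1} → (H1R ρ T).Finite

/-- the value at a tame generator -/
def TAUR : Prop := ∀ (R : Type) [CommRing R] [Finite R] (ρ : GQ →* GL (Fin 2) R)
  (q : ℕ) (P : Ideal (𝓞 Qb)) (φ τ : GQ) (c : GQ → M2 R), (2 : R) = 0 → Ov q P → q ≠ 2 → Fb q P φ → Gn q P τ →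
  (∀ g, Inert P g → ρ g = 1) → Co ρ c → Op c →
  mr ρ φ * c τ * mr ρ φ⁻¹ = c τ ∧
    (c τ = 0 → ∀ P' : Ideal (𝓞 Qb), Ov q P' → ∀ g, Inert P' g → c g = 0)

/-- enlarging the set of places -/
def ENLR : Prop := ∀ (R : Type) [CommRing R] [Finite R] (ρ : GQ →* GL (Fin 2) R)
  (T T₁ Q : Finset ℕ) (D D₁ : ℕ → Set GQ), IsOpen {g : GQ | ρ g = 1} → T ⊆ T₁ →
  (∀ l ∈ T₁, l ∉ T → l.Prime ∧ l ∉ Q ∧ IsDec l (D₁ l)) → (∀ l ∈ T, D₁ l = D l) →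
  (TanS ρ T₁ Q D₁).Finite →
  (TanS ρ T Q D).Finite ∧ Nat.card (TanS ρ T Q D) ≤ Nat.card (TanS ρ T₁ Q D₁)

/-- duality in `A / t ^ N` -/
def DUAL : Prop := ∀ (A : Type) [CommRing A] [IsDomain A] [IsDiscreteValuationRing A] (x : A)
  [Finite (A ⧸ Ideal.span {x})] (I : Type) [Fintype I]
  (S : Submodule (A ⧸ Ideal.span {x}) (I → A ⧸ Ideal.span {x})),
  Nat.card {v : I → A ⧸ Ideal.span {x} // ∀ s ∈ S, ∑ i, s i * v i = 0} * Nat.card S ≤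
    Nat.card (A ⧸ Ideal.span {x}) ^ Fintype.card I

/-- the classes which are trivial at a large set of places -/
def SHA : Prop := ∀ (A : Type) [CommRing A] [IsDomain A] [IsDiscreteValuationRing A] [CharP A 2]
  (t : A) (ρ : GQ →* GL (Fin 2) A) (T : Finset ℕ) (D : ℕ → Set GQ), Irreducible t →
  Finite (A ⧸ tI t 1) → Nice t ρ T D →
  ∃ (T₁ : Finset ℕ) (D₁ : ℕ → Set GQ) (C : ℕ), T ⊆ T₁ ∧ (∀ l ∈ T, D₁ l = D l) ∧
    (∀ l ∈ T₁, IsDec l (D₁ l)) ∧ ∀ N : ℕ,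
      Nat.card (TanS (rd (tI t N) ρ) T₁ ∅ D₁) ≤
        C * (Nat.card (FxR (rd (tI t N) ρ) T₁ D₁) * Nat.card (A ⧸ tI t N) ^ 3)

/-- the dual classes -/
def KILL : Prop := ∀ (A : Type) [CommRing A] [IsDomain A] [IsDiscreteValuationRing A] [CharP A 2]
  (t : A) (ρ : GQ →* GL (Fin 2) A) (T : Finset ℕ) (D : ℕ → Set GQ), Irreducible t →
  Finite (A ⧸ tI t 1) → Nice t ρ T D → ∃ C : ℕ, ∀ N : ℕ,
    Nat.card {y : GQ → M2 (A ⧸ tI t N) // y ∈ H1R (rd (tI t N) ρ) T ∧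
      ∀ σ ∈ Ginf, IsUnit (mr ρ σ).trace →
        (y σ).trace = 0 ∧ (y σ * mr (rd (tI t N) ρ) σ).trace = 0} ≤
      C * Nat.card (A ⧸ tI t N) ^ 5

/-- existence of the auxiliary primes -/
def AUXR : Prop := ∀ (A : Type) [CommRing A] [IsDomain A] [IsDiscreteValuationRing A] [CharP A 2]
  (t : A) (ρ : GQ →* GL (Fin 2) A) (T : Finset ℕ) (D : ℕ → Set GQ), Irreducible t →
  Finite (A ⧸ tI t 1) → Nice t ρ T D → ∀ (U : Subgroup GQ) (S : Finset ℕ) (σ : GQ),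
  IsOpen (U : Set GQ) → IsUnit (mr ρ σ).trace → ∃ q : ℕ, AuxR ρ U S σ q

end P022G.Sel
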