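import Vale.Agent.P022G.Sel.Defs
import Vale.Agent.P022E.GW.Kc
import Vale.Agent.P022E.GW.Hyp
import Vale.Agent.P022D.Sel.Open

/-!
# P022G, block Sel: finiteness of the unramified cocycles
-/

set_option linter.all false

noncomputable section

namespace P022G.Sel

open NumberField
open Vale.Agent.P022 Vale.Agent.P022.H916
open Vale.Agent.P022E.GW (Ov Op Ur)
open Vale.Agent.P022E.GW.Kc

namespace Finr

theorem sep {M : Type} [AddCommGroup M] (h2 : ∀ x : M, 2 • x = 0) {x : M}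
    (h : ∀ l : M →+ ZMod 2, l x = 0) : x = 0 := by
  letI : Module (ZMod 2) M := AddCommGroup.zmodModule h2
  haveI : Fact (Nat.Prime 2) := ⟨Nat.prime_two⟩
  exact (Module.forall_dual_apply_eq_zero_iff (ZMod 2) x).1 fun l => h l.toAddMonoidHom

/-- one open subgroup kills all the unramified homomorphisms of exponent two -/
theorem ex_U {H : Subgroup GQ} (hH : IsOpen (H : Set GQ)) (T : Finset ℕ) :
    ∃ U : Subgroup GQ, IsOpen (U : Set GQ) ∧ U ≤ H ∧
      ∀ (M : Type) [AddCommGroup M], (∀ x : M, 2 • x = 0) → ∀ c : GQ → M,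
        (∀ g ∈ H, ∀ h ∈ H, c (g * h) = c g + c h) → Op c → Ur T c → ∀ g ∈ U, c g = 0 := by
  obtain ⟨A₀, -, hA⟩ := Vale.Agent.P022E.GW.Hy.ex_bg hH
  obtain ⟨L, _, _, j, rfl, hB⟩ := hA (A₀ ∪ T) Finset.subset_union_left
  obtain ⟨U, hU, -, hle, hf⟩ := Vale.Agent.P022D.Sel.opn L j (A₀ ∪ T)
  refine ⟨U, hU, hle, fun M _ h2 c ha ho hu g hg => sep h2 fun l => ?_⟩
  obtain ⟨V, hV, hc⟩ := ho
  obtain ⟨u, h⟩ := kq_surjU j hB (fun g => l (c g))
    (fun g hg h hh => by rw [ha g hg h hh, map_add])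
    ⟨V, hV, fun σ hσ _ => by rw [hc σ hσ, map_zero]⟩
    (fun p hp hn P hP hm g _ hi => by
      rw [hu p (fun k => hn (Finset.mem_union_right _ k)) P ⟨hp, hP, hm⟩ g hi, map_zero])
  rw [h g (hle hg)]
  exact (kq_zero (rt_sq _) g).2 (hf g hg u _ (rt_sq _))

end Finr

theorem finrC : FINR := by
  intro R _ _ ρ T h2 ho
  obtain ⟨U, hU, hle, h⟩ := Finr.ex_U (H := ρ.ker) ho T
  haveI := isGalois_Qb
  haveI : Finite (GQ ⧸ U) := Subgroup.quotient_finite_of_isOpen U hU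
  have hm : ∀ g ∈ ρ.ker, mr ρ g = 1 := fun g hg => by
    rw [mr, MonoidHom.mem_ker.1 hg, Units.val_one]
  refine Set.Finite.of_finite_image (f := fun (c : GQ → Vale.Agent.P022D.Sel.M2 R)
    (x : GQ ⧸ U) => c x.out) (Set.toFinite _) ?_
  have key : ∀ c ∈ H1R ρ T, ∀ g : GQ, c (QuotientGroup.mk g : GQ ⧸ U).out = c g := by
    rintro c ⟨h1, h3, h4⟩ g
    obtain ⟨u, hu⟩ := QuotientGroup.mk_out_eq_mul U g
    rw [hu, h1, h _ (fun x => by rw [two_nsmul, ← two_smul R x, h2, zero_smul]) c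
      (fun a ha b _ => by rw [h1, hm a ha, hm _ (ρ.ker.inv_mem ha), one_mul, mul_one]) h3 h4 u u.2,
      mul_zero, zero_mul, add_zero]
  intro c hc c' hc' e
  funext g
  rw [← key c hc g, ← key c' hc' g]
  exact congrFun e _

end P022G.Sel
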