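import Vale.Agent.P022G.Sel.Defs
import Vale.Agent.P022E.GW.TauG

/-!
# P022G, block Sel: the value of a cocycle at a tame generator, coefficients in a ring
-/

set_option linter.all false

noncomputable section

namespace P022G.Sel.H9

open NumberField
open Vale.Agent.P022 Vale.Agent.P022.H443
open Vale.Agent.P027M.S (Inert)
open Vale.Agent.P022D.Sel (M2 opn_core)
open Vale.Agent.P022D.W (dec conj_inP phi_mem chi_data)
open Vale.Agent.P022E.GW
open Vale.Agent.P022E.GW.Tg (gn_iff gn_conj inert_conj)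
open scoped Pointwise

theorem add_pow' {M : Type} [AddCommGroup M] {D : Subgroup GQ} {a : GQ → M}
    (ha : ∀ s ∈ D, ∀ t ∈ D, a (s * t) = a s + a t)
    {s : GQ} (hs : s ∈ D) (n : ℕ) : a (s ^ n) = n • a s := by
  induction n with
  | zero =>
    have := ha 1 D.one_mem 1 D.one_mem
    rw [mul_one] at this
    simpa using left_eq_add.1 this
  | succ n ih => rw [pow_succ, ha _ (D.pow_mem hs n) _ hs, ih, succ_nsmul]

theorem odd_smul {M : Type} [AddCommGroup M] (h2 : ∀ x : M, x + x = 0) {m : ℕ} (hm : Odd m)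
    (x : M) : m • x = x := by
  obtain ⟨i, rfl⟩ := hm
  rw [succ_nsmul, mul_comm, mul_nsmul', two_nsmul, h2, nsmul_zero, zero_add]

/-- characters of an open subgroup of the inertia group at an odd prime are proportional -/
theorem ti {l : ℕ} (hl : l.Prime) (h2 : l ≠ 2) {P : Ideal (𝓞 Qb)} (hP : P.IsPrime)
    (hPl : (l : 𝓞 Qb) ∈ P) {I : Subgroup GQ} (hI : I ≤ inP P) (U : Subgroup GQ) [U.Normal]
    (hU : IsOpen (U : Set GQ)) : ∃ t ∈ I, ∀ s ∈ I, ∃ n : ℕ,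
      ∀ (M : Type) [AddCommGroup M] (a : GQ → M), (∀ x : M, x + x = 0) →
      (∀ s ∈ I, ∀ t ∈ I, a (s * t) = a s + a t) → (∀ s ∈ I, s ∈ U → a s = 0) → a s = n • a t := by
  obtain ⟨k, _, _, χ, hfin, h1, -, -⟩ := chi_data U hU hl h2 hP hPl
  let χ' := χ.toHomUnits.comp (Subgroup.inclusion hI)
  have hfin' : Finite χ'.range := by
    have := hfin.to_subtype
    refine Finite.of_injective (β := Set.range χ)
      (fun x => ⟨(x.1 : k), by obtain ⟨g, hg⟩ := x.2; exact ⟨_, by rw [← hg]; rfl⟩⟩) ?_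
    intro x y h
    exact Subtype.ext (Units.ext (Subtype.ext_iff.1 h))
  have hc : IsCyclic χ'.range := isCyclic_of_injective_ringHom
    ((Units.coeHom k).comp χ'.range.subtype) (fun x y h => Subtype.ext (Units.ext h))
  obtain ⟨⟨_, τ, rfl⟩, hτ⟩ := IsCyclic.exists_monoid_generator (α := χ'.range)
  refine ⟨τ, τ.2, fun g hg => ?_⟩
  obtain ⟨n, hn⟩ := hτ ⟨χ' ⟨g, hg⟩, _, rfl⟩
  have hn' : χ' τ ^ n = χ' ⟨g, hg⟩ := congrArg Subtype.val hn
  refine ⟨n, fun M _ a t0 ha h0 => ?_⟩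
  have e : χ' ((τ ^ n)⁻¹ * ⟨g, hg⟩) = 1 := by rw [map_mul, map_inv, map_pow, hn', inv_mul_cancel]
  have e' : χ (Subgroup.inclusion hI ((τ ^ n)⁻¹ * (⟨g, hg⟩ : I))) = 1 := congrArg Units.val e
  obtain ⟨m, hi, hm⟩ := h1 _ e'
  have hp : ((τ : GQ) ^ n)⁻¹ * g ∈ I := ((τ ^ n)⁻¹ * ⟨g, hg⟩ : I).2
  have e1 := h0 _ (I.pow_mem hp m) hm
  rw [add_pow' ha hp, odd_smul t0 hi] at e1
  have e2 := ha _ (I.pow_mem τ.2 n) _ hp
  rw [mul_inv_cancel_left, e1, add_zero, add_pow' ha τ.2] at e2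
  exact e2

variable {q : ℕ} {P : Ideal (𝓞 Qb)}

theorem odd_of {n : ℕ} (h : (n : ZMod 2) = 1) : Odd n := ZMod.natCast_eq_one_iff_odd.1 h

/-- a character of the inertia group is determined by its value at a generator -/
theorem mult {M : Type} [AddCommGroup M] (t0 : ∀ x : M, x + x = 0) (h : Ov q P) (h2 : q ≠ 2)
    {τ : GQ} (hτ : Gn q P τ) {a : GQ → M}
    (ha : ∀ s, Inert P s → ∀ t, Inert P t → a (s * t) = a s + a t)
    (ho : ∃ U : Subgroup GQ, IsOpen (U : Set GQ) ∧ ∀ σ ∈ U, Inert P σ → a σ = 0) {s : GQ}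
    (hs : Inert P s) : ∃ n : ℕ, a s = n • a τ ∧ (n : ZMod 2) = Kc.kq (q : Qb) s := by
  obtain ⟨U, hU, h0⟩ := ho
  obtain ⟨V, hV, k0⟩ := Kc.kq_opn (q : Qb)
  obtain ⟨t, -, k⟩ := ti h.1 h2 h.2.1 h.2.2 (I := inP P) le_rfl (U ⊓ V).normalCore
    (opn_core _ (hU.inter hV))
  have a0 : ∀ s ∈ inP P, s ∈ (U ⊓ V).normalCore → a s = 0 := fun s hs m =>
    h0 s ((U ⊓ V).normalCore_le m).1 hs
  have b1 : ∀ s ∈ inP P, ∀ t ∈ inP P, Kc.kq (q : Qb) (s * t) =
      Kc.kq (q : Qb) s + Kc.kq (q : Qb) t := fun s _ t _ =>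
    Kc.kq_add (map_natCast s q) (map_natCast t q)
  have b0 : ∀ s ∈ inP P, s ∈ (U ⊓ V).normalCore → Kc.kq (q : Qb) s = 0 := fun s _ m =>
    k0 s ((U ⊓ V).normalCore_le m).2
  have z0 : ∀ x : ZMod 2, x + x = 0 := by decide
  obtain ⟨n, hn⟩ := k s hs
  obtain ⟨m, hm⟩ := k τ hτ.1
  have e1 := hn M a t0 ha a0
  have e2 := hn _ _ z0 b1 b0
  have e3 := hm M a t0 ha a0
  have e4 := hm _ _ z0 b1 b0
  rw [((gn_iff h).1 hτ).2, nsmul_eq_mul] at e4
  have e5 : ∀ x y : ZMod 2, 1 = x * y → x = 1 ∧ y = 1 := by decide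
  obtain ⟨e6, e7⟩ := e5 _ _ e4
  rw [odd_smul t0 (odd_of e6)] at e3
  refine ⟨n, by rw [e1, e3], ?_⟩
  rw [e2, e7, nsmul_eq_mul, mul_one]

variable {R : Type} [CommRing R] {ρ : GQ →* GL (Fin 2) R} {c : GQ → M2 R}

theorem mr_one {g : GQ} (h : ρ g = 1) : mr ρ g = 1 ∧ mr ρ g⁻¹ = 1 := by
  simp only [mr, map_inv, h, inv_one, Units.val_one, and_self]

/-- conjugation of an element of the kernel -/
theorem c_conj (hc : Co ρ c) (t : GQ) {s : GQ}
    (hs : ρ s = 1) : c (t * s * t⁻¹) = mr ρ t * c s * mr ρ t⁻¹ := by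
  have e : ρ (t * s * t⁻¹) = 1 := by rw [map_mul, map_mul, hs, map_inv, mul_one, mul_inv_cancel]
  have h1 := hc (t * s * t⁻¹) t
  rw [inv_mul_cancel_right, hc t s, (mr_one e).1, (mr_one e).2, one_mul, mul_one, add_comm] at h1
  exact (add_right_cancel h1).symm

theorem m2_add (t0 : (2 : R) = 0) (x : M2 R) : x + x = 0 := by
  rw [← two_smul R, t0, zero_smul]

/-- the values of a cocycle on the inertia group -/
theorem val (t0 : (2 : R) = 0) (h : Ov q P) (h2 : q ≠ 2) {τ : GQ} (hτ : Gn q P τ)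
    (hu : ∀ g, Inert P g → ρ g = 1) (hc : Co ρ c)
    (ho : Op c) {s : GQ} (hs : Inert P s) :
    ∃ n : ℕ, c s = n • c τ ∧ (n : ZMod 2) = Kc.kq (q : Qb) s := by
  refine mult (m2_add t0) h h2 hτ (fun s hs t _ => ?_)
    (ho.imp fun U hU => ⟨hU.1, fun σ m _ => hU.2 σ m⟩) hs
  rw [hc, (mr_one (hu s hs)).1, (mr_one (hu s hs)).2, one_mul, mul_one]

/-- the value at a generator is invariant under the decomposition group -/
theorem tau_dec (t0 : (2 : R) = 0) (h : Ov q P) (h2 : q ≠ 2) {φ τ : GQ} (hφ : φ ∈ dec P)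
    (hτ : Gn q P τ) (hu : ∀ g, Inert P g → ρ g = 1) (hc : Co ρ c)
    (ho : Op c) : mr ρ φ * c τ * mr ρ φ⁻¹ = c τ := by
  have k := gn_conj h hφ hτ
  obtain ⟨n, h1, h3⟩ := val t0 h h2 hτ hu hc ho k.1
  rw [((gn_iff h).1 k).2] at h3
  rw [← c_conj hc φ (hu τ hτ.1), h1, odd_smul (m2_add t0) (odd_of h3)]

/-- **the value of a cocycle at a generator of the tame inertia** -/
theorem taur : TAUR := by
  intro R _ _ ρ q P φ τ c t0 h h2 hφ hτ hu hc ho
  refine ⟨tau_dec t0 h h2 (phi_mem h.1 h.2.1 hφ) hτ hu hc ho, fun h0 P' h' g hg => ?_⟩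
  obtain ⟨t, rfl⟩ := Tg.trans h h'
  have k := inert_conj hg
  have e := c_conj hc t (hu _ k)
  obtain ⟨n, h1, -⟩ := val t0 h h2 hτ hu hc ho k
  rw [h1, h0, smul_zero, mul_zero, zero_mul] at e
  rw [← e]
  congr 1
  group

end P022G.Sel.H9
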