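import Vale.Agent.P022G.Sel.Defs
import Vale.Agent.P022G.Car

/-!
# P022G, block Sel: basic lemmas
-/

set_option linter.all false

noncomputable section

namespace P022G.Sel.Bas

open NumberField
open Vale.Agent.P022
open Vale.Agent.P027M.S (Inert)
open Vale.Agent.P022D.Sel (M2 IsDec Ginf)
open Vale.Agent.P022E.GW (Ov Fb Gn Op Ur)
open Vale.Agent.P022G

section ring

variable {R : Type} [CommRing R] {ρ : GQ →* GL (Fin 2) R}

theorem mm (g h : GQ) : mr ρ (g * h) = mr ρ g * mr ρ h := by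
  simp only [mr, map_mul, Units.val_mul]

theorem m1 : mr ρ 1 = 1 := by simp only [mr, map_one, Units.val_one]

theorem mi (g : GQ) : mr ρ g⁻¹ * mr ρ g = 1 := by rw [← mm, inv_mul_cancel, m1]

theorem mi' (g : GQ) : mr ρ g * mr ρ g⁻¹ = 1 := by rw [← mm, mul_inv_cancel, m1]

theorem mker {g : GQ} (h : ρ g = 1) : mr ρ g = 1 ∧ mr ρ g⁻¹ = 1 := by
  simp only [mr, map_inv, h, inv_one, Units.val_one, and_self]

theorem mr_rd (J : Ideal R) (g : GQ) : mr (rd J ρ) g = (mr ρ g).map (Ideal.Quotient.mk J) := rfl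

theorem two_q [CharP R 2] (J : Ideal R) : (2 : R ⧸ J) = 0 := by
  have : (2 : R ⧸ J) = Ideal.Quotient.mk J 2 := (map_ofNat _ 2).symm
  rw [this, CharTwo.two_eq_zero, map_zero]

/-- the matrix valued homomorphism -/
def mh (ρ : GQ →* GL (Fin 2) R) : GQ →* M2 R := (Units.coeHom _).comp ρ

theorem mh_apply (g : GQ) : mh ρ g = mr ρ g := rfl

theorem coc_of {y : GQ → M2 R} (hy : Co ρ y) : Car.Coc (mh ρ) (fun g => y g * mr ρ g) := by
  intro g h
  simp only [mh_apply]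
  rw [hy g h, mm, add_mul, mul_assoc (mr ρ g * y h), ← mul_assoc (mr ρ g⁻¹), mi, one_mul]
  simp only [mul_assoc]

theorem co_sub {y z : GQ → M2 R} (hy : Co ρ y) (hz : Co ρ z) : Co ρ (y - z) := fun g h => by
  simp only [Pi.sub_apply]
  rw [hy g h, hz g h]
  noncomm_ring

theorem h1_sub {T : Finset ℕ} {y z : GQ → M2 R} (hy : y ∈ H1R ρ T) (hz : z ∈ H1R ρ T) :
    y - z ∈ H1R ρ T := by
  refine ⟨co_sub hy.1 hz.1, ?_, fun l hl P hP g hg => ?_⟩
  · obtain ⟨U, hU, h⟩ := hy.2.1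
    obtain ⟨V, hV, k⟩ := hz.2.1
    exact ⟨U ⊓ V, hU.inter hV, fun σ hσ => by rw [Pi.sub_apply, h σ hσ.1, k σ hσ.2, sub_zero]⟩
  · rw [Pi.sub_apply, hy.2.2 l hl P hP g hg, hz.2.2 l hl P hP g hg, sub_zero]

/-- the cocycles as a submodule -/
def H1M (ρ : GQ →* GL (Fin 2) R) (T : Finset ℕ) : Submodule R (GQ → M2 R) where
  carrier := H1R ρ T
  add_mem' {a b} ha hb := ⟨fun g h => by
      simp only [Pi.add_apply]; rw [ha.1 g h, hb.1 g h]; noncomm_ring,
    ha.2.1.add hb.2.1, fun l hl P hP g hg => by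
      rw [Pi.add_apply, ha.2.2 l hl P hP g hg, hb.2.2 l hl P hP g hg, add_zero]⟩
  zero_mem' := ⟨fun _ _ => by simp, ⟨⊤, isOpen_univ, fun _ _ => rfl⟩, fun _ _ _ _ _ _ => rfl⟩
  smul_mem' r a ha := ⟨fun g h => by
      simp only [Pi.smul_apply]; rw [ha.1 g h, smul_add, mul_smul_comm, smul_mul_assoc],
    ha.2.1.imp fun U hU => ⟨hU.1, fun σ hσ => by rw [Pi.smul_apply, hU.2 σ hσ, smul_zero]⟩,
    fun l hl P hP g hg => by rw [Pi.smul_apply, ha.2.2 l hl P hP g hg, smul_zero]⟩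

theorem trpow {y : GQ → M2 R} (hy : Co ρ y) {σ : GQ} {C : M2 R} (hC : mr ρ σ * C = C * mr ρ σ)
    (n : ℕ) : (C * y (σ ^ n)).trace = n * (C * y σ).trace := by
  induction n with
  | zero =>
    have h := hy 1 1
    rw [mul_one, inv_one, m1, one_mul, mul_one, left_eq_add] at h
    rw [pow_zero, h, mul_zero, Matrix.trace_zero, Nat.cast_zero, zero_mul]
  | succ n ih =>
    rw [pow_succ', hy, mul_add, Matrix.trace_add, ← mul_assoc, ← mul_assoc, ← hC,
      Matrix.trace_mul_comm (mr ρ σ * C * y (σ ^ n)), ← mul_assoc, ← mul_assoc, mi, one_mul, ih]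
    push_cast
    ring

theorem odd_cast (h2 : (2 : R) = 0) {m : ℕ} (hm : Odd m) : (m : R) = 1 := by
  obtain ⟨k, rfl⟩ := hm
  push_cast
  rw [h2, zero_mul, zero_add]

theorem tr_cob (C a : M2 R) {g : GQ} (hC : mr ρ g * C = C * mr ρ g) :
    (C * (a - mr ρ g * a * mr ρ g⁻¹)).trace = 0 := by
  rw [mul_sub, Matrix.trace_sub, ← mul_assoc, ← mul_assoc, ← hC,
    Matrix.trace_mul_comm (mr ρ g * C * a), ← mul_assoc, ← mul_assoc, mi, one_mul, sub_self]

theorem adj2 (S S' y : M2 R) (hS : S' * S = 1) (hd : S.det = 1) (h1 : y.trace = 0)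
    (h2 : (y * S).trace = 0) : S' = S.trace • (1 : M2 R) - S ∧ S' * y = y * S := by
  have e : S * (S.trace • (1 : M2 R) - S) = 1 := by
    rw [Matrix.det_fin_two] at hd
    ext i j
    fin_cases i <;> fin_cases j <;>
      simp [Matrix.mul_apply, Fin.sum_univ_two, Matrix.trace_fin_two] <;>
      first | linear_combination hd | ring
  have e1 : S' = S.trace • (1 : M2 R) - S := by
    calc S' = S' * (S * (S.trace • (1 : M2 R) - S)) := by rw [e, mul_one]
      _ = _ := by rw [← mul_assoc, hS, one_mul]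
  refine ⟨e1, ?_⟩
  rw [e1]
  simp only [Matrix.trace_fin_two, Matrix.mul_apply, Fin.sum_univ_two] at h1 h2
  ext i j
  fin_cases i <;> fin_cases j <;>
    simp [Matrix.mul_apply, Fin.sum_univ_two, Matrix.trace_fin_two]
  · linear_combination (S 1 1) * h1 - h2
  · linear_combination (-(S 0 1)) * h1
  · linear_combination (-(S 1 0)) * h1
  · linear_combination (S 0 0) * h1 - h2

/-- the trace step -/
theorem tr_step {y : GQ → M2 R} (hy : Co ρ y) {s g : GQ} (hd : (mr ρ s).det = 1)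
    (h1 : (y s).trace = 0) (h2 : (y s * mr ρ s).trace = 0)
    (h3 : (y (g * s) * mr ρ (g * s)).trace = 0)
    (h4 : (y (g * s * s) * mr ρ (g * s * s)).trace = 0) : (y g * mr ρ g).trace = 0 := by
  obtain ⟨e1, e2⟩ := adj2 (mr ρ s) (mr ρ s⁻¹) (y s) (mi s) hd h1 h2
  have c := coc_of hy
  have a1 := c (g * s) s
  have a2 := c g s
  simp only [mh_apply] at a1 a2
  have a3 : y g * mr ρ g = (mr ρ s).trace • (y (g * s) * mr ρ (g * s)) -
      y (g * s * s) * mr ρ (g * s * s) := by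
    have b1 : y g * mr ρ g = y (g * s) * mr ρ (g * s) * mr ρ s⁻¹ - mr ρ g * y s := by
      rw [a2, add_mul, mul_assoc (y g * mr ρ g), mi', mul_one, mul_assoc (mr ρ g),
        mul_assoc (y s), mi', mul_one, add_sub_cancel_right]
    have b2 : mr ρ (g * s) * (y s * mr ρ s) = mr ρ g * y s := by
      rw [← e2, mm, mul_assoc, ← mul_assoc (mr ρ s), mi', one_mul]
    rw [b1, a1, b2, e1, mul_sub, mul_smul_comm, mul_one]
    abel
  rw [a3, Matrix.trace_sub, Matrix.trace_smul, h3, h4, smul_zero, sub_zero]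

theorem card_le_range {X Y : Type*} [Finite X] (S : Set Y) (f : X → Y) (h : S ⊆ Set.range f) :
    S.Finite ∧ Nat.card S ≤ Nat.card X := by
  have hf := Set.finite_range f
  refine ⟨hf.subset h, (Nat.card_mono hf h).trans ?_⟩
  exact Nat.card_le_card_of_surjective (Set.rangeFactorization f) Set.rangeFactorization_surjective

theorem quot_mul (x y : R) : ∃ f : (R ⧸ Ideal.span {x}) × (R ⧸ Ideal.span {y}) →
    R ⧸ Ideal.span {x * y}, Function.Surjective f := by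
  refine ⟨fun p => Ideal.Quotient.mk _ (p.1.out + x * p.2.out), fun z => ?_⟩
  obtain ⟨z, rfl⟩ := Ideal.Quotient.mk_surjective z
  have a : ∀ (w z : R), ∃ u, z = (Ideal.Quotient.mk (Ideal.span {w}) z).out + w * u := by
    intro w z
    have : z - (Ideal.Quotient.mk (Ideal.span {w}) z).out ∈ Ideal.span {w} := by
      rw [← Ideal.Quotient.eq]
      exact (Ideal.Quotient.mk_out _).symm
    obtain ⟨u, hu⟩ := Ideal.mem_span_singleton.1 this
    exact ⟨u, by rw [← hu]; ring⟩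
  obtain ⟨u, hu⟩ := a x z
  obtain ⟨v, hv⟩ := a y u
  refine ⟨(Ideal.Quotient.mk _ z, Ideal.Quotient.mk _ u), ?_⟩
  simp only
  rw [Ideal.Quotient.eq, Ideal.mem_span_singleton]
  exact ⟨-v, by linear_combination -hu - x * hv⟩

theorem fin_tI {t : R} (h : Finite (R ⧸ tI t 1)) (N : ℕ) : Finite (R ⧸ tI t N) := by
  induction N with
  | zero =>
    have : Subsingleton (R ⧸ tI t 0) := Ideal.Quotient.subsingleton_iff.2 (by simp [tI])
    infer_instance
  | succ N ih =>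
    obtain ⟨f, hf⟩ := quot_mul (t ^ N) (t ^ 1)
    have e : tI t (N + 1) = Ideal.span {t ^ N * t ^ 1} := by rw [← pow_add]
    rw [e]
    exact Finite.of_surjective f hf

theorem card_add {t : R} (h : Finite (R ⧸ tI t 1)) (N M : ℕ) :
    Nat.card (R ⧸ tI t (N + M)) ≤ Nat.card (R ⧸ tI t N) * Nat.card (R ⧸ tI t M) := by
  have := fin_tI h N
  have := fin_tI h M
  obtain ⟨f, hf⟩ := quot_mul (t ^ N) (t ^ M)
  have e : tI t (N + M) = Ideal.span {t ^ N * t ^ M} := by rw [← pow_add]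
  rw [e, ← Nat.card_prod]
  exact Nat.card_le_card_of_surjective f hf

/-- all entries are divisible by `x` -/
def Dv (x : R) (Y : M2 R) : Prop := ∃ X : M2 R, Y = x • X

theorem dv_iff (x : R) (Y : M2 R) :
    Y.map (Ideal.Quotient.mk (Ideal.span {x})) = 0 ↔ Dv x Y := by
  constructor
  · intro h
    have : ∀ i j, ∃ u, Y i j = x * u := fun i j => Ideal.mem_span_singleton.1
      (Ideal.Quotient.eq_zero_iff_mem.1 (congrFun (congrFun h i) j))
    choose u hu using this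
    exact ⟨Matrix.of u, by ext i j; simp [hu i j]⟩
  · rintro ⟨X, rfl⟩
    ext i j
    exact Ideal.Quotient.eq_zero_iff_mem.2 (Ideal.mem_span_singleton.2 ⟨X i j, rfl⟩)

theorem dv_iff' (x : R) (Y Z : M2 R) : Y.map (Ideal.Quotient.mk (Ideal.span {x})) =
    Z.map (Ideal.Quotient.mk (Ideal.span {x})) ↔ Dv x (Y - Z) := by
  rw [← dv_iff, Matrix.map_sub _ (map_sub _), sub_eq_zero]

theorem Dv.add {x : R} {Y Z : M2 R} (a : Dv x Y) (b : Dv x Z) : Dv x (Y + Z) := by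
  obtain ⟨X, rfl⟩ := a
  obtain ⟨W, rfl⟩ := b
  exact ⟨X + W, (smul_add _ _ _).symm⟩

theorem Dv.sub {x : R} {Y Z : M2 R} (a : Dv x Y) (b : Dv x Z) : Dv x (Y - Z) := by
  obtain ⟨X, rfl⟩ := a
  obtain ⟨W, rfl⟩ := b
  exact ⟨X - W, (smul_sub _ _ _).symm⟩

theorem Dv.mul {x : R} {Y : M2 R} (a : Dv x Y) (L K : M2 R) : Dv x (L * Y * K) := by
  obtain ⟨X, rfl⟩ := a
  exact ⟨L * X * K, by rw [mul_smul_comm, smul_mul_assoc]⟩

theorem Dv.of_dvd {x y : R} {Y : M2 R} (a : Dv y Y) (h : x ∣ y) : Dv x Y := by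
  obtain ⟨X, rfl⟩ := a
  obtain ⟨u, rfl⟩ := h
  exact ⟨u • X, mul_smul _ _ _⟩

theorem Dv.smul {x : R} {Y : M2 R} (a : Dv x Y) (y : R) : Dv (x * y) (y • Y) := by
  obtain ⟨X, rfl⟩ := a
  exact ⟨X, by rw [smul_smul, mul_comm]⟩

theorem Dv.cancel [IsDomain R] {x y : R} {Y : M2 R} (hy : y ≠ 0) (a : Dv (x * y) (y • Y)) :
    Dv x Y := by
  obtain ⟨X, h⟩ := a
  refine ⟨X, ?_⟩
  ext i j
  have := congrFun (congrFun h i) j
  simp only [Matrix.smul_apply, smul_eq_mul] at this ⊢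
  exact mul_left_cancel₀ hy (by rw [this]; ring)

/-- reduction of a function -/
def red (J : Ideal R) (c : GQ → M2 R) : GQ → M2 (R ⧸ J) :=
  fun g => (c g).map (Ideal.Quotient.mk J)

theorem ex_lift (J : Ideal R) (y : M2 (R ⧸ J)) : ∃ c : M2 R, c.map (Ideal.Quotient.mk J) = y :=
  ⟨y.map Quotient.out, by ext i j; exact Ideal.Quotient.mk_out _⟩

theorem red_surj (J : Ideal R) (y : GQ → M2 (R ⧸ J)) : ∃ c, red J c = y := by
  choose c hc using fun g => ex_lift J (y g)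
  exact ⟨c, funext hc⟩

/-- cocycles modulo `x` -/
structure ZA (ρ : GQ →* GL (Fin 2) R) (T : Finset ℕ) (x : R) (c : GQ → M2 R) : Prop where
  coc : ∀ g h, Dv x (c (g * h) - (c g + mr ρ g * c h * mr ρ g⁻¹))
  opn : ∃ U : Subgroup GQ, IsOpen (U : Set GQ) ∧ ∀ u ∈ U, Dv x (c u)
  unr : ∀ l ∉ T, ∀ P : Ideal (𝓞 Qb), Ov l P → ∀ g, Inert P g → Dv x (c g)

theorem za_iff {T : Finset ℕ} (x : R) (c : GQ → M2 R) :
    red (Ideal.span {x}) c ∈ H1R (rd (Ideal.span {x}) ρ) T ↔ ZA ρ T x c := by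
  have e : ∀ g h, (red (Ideal.span {x}) c (g * h) = red (Ideal.span {x}) c g +
      mr (rd (Ideal.span {x}) ρ) g * red (Ideal.span {x}) c h * mr (rd (Ideal.span {x}) ρ) g⁻¹) ↔
      Dv x (c (g * h) - (c g + mr ρ g * c h * mr ρ g⁻¹)) := fun g h => by
    rw [← dv_iff', Matrix.map_add _ (map_add _), Matrix.map_mul, Matrix.map_mul]
    rfl
  constructor
  · rintro ⟨a, ⟨U, hU, b⟩, d⟩
    exact ⟨fun g h => (e g h).1 (a g h), ⟨U, hU, fun u hu => (dv_iff _ _).1 (b u hu)⟩,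
      fun l hl P hP g hg => (dv_iff _ _).1 (d l hl P hP g hg)⟩
  · rintro ⟨a, ⟨U, hU, b⟩, d⟩
    exact ⟨fun g h => (e g h).2 (a g h), ⟨U, hU, fun u hu => (dv_iff _ _).2 (b u hu)⟩,
      fun l hl P hP g hg => (dv_iff _ _).2 (d l hl P hP g hg)⟩

theorem ZA.cancel [IsDomain R] {T : Finset ℕ} {x y : R} {c : GQ → M2 R} (hy : y ≠ 0)
    (h : ZA ρ T (x * y) (y • c)) : ZA ρ T x c := by
  obtain ⟨a, ⟨U, hU, b⟩, d⟩ := h
  refine ⟨fun g h => Dv.cancel hy ?_, ⟨U, hU, fun u hu => Dv.cancel hy (b u hu)⟩,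
    fun l hl P hP g hg => Dv.cancel hy (d l hl P hP g hg)⟩
  have := a g h
  simp only [Pi.smul_apply] at this
  rwa [mul_smul_comm, smul_mul_assoc, ← smul_add, ← smul_sub] at this

theorem ZA.of_dvd {T : Finset ℕ} {x y : R} {c : GQ → M2 R} (h : ZA ρ T y c) (hx : x ∣ y) :
    ZA ρ T x c := by
  obtain ⟨a, ⟨U, hU, b⟩, d⟩ := h
  exact ⟨fun g h => (a g h).of_dvd hx, ⟨U, hU, fun u hu => (b u hu).of_dvd hx⟩,
    fun l hl P hP g hg => (d l hl P hP g hg).of_dvd hx⟩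

theorem ZA.sub {T : Finset ℕ} {x : R} {c b : GQ → M2 R} (h : ZA ρ T x c) (k : ZA ρ T x b) :
    ZA ρ T x (c - b) := by
  rw [← za_iff] at h k ⊢
  have : red (Ideal.span {x}) (c - b) = red (Ideal.span {x}) c - red (Ideal.span {x}) b :=
    funext fun g => Matrix.map_sub _ (map_sub _) _ _
  rw [this]
  exact h1_sub h k

theorem sp_rd {δ : R} (h : ∀ Z : M2 R, δ • Z ∈ Submodule.span R (mr ρ '' (Ginf : Set GQ)))
    (J : Ideal R) {H : Subgroup GQ} (hH : Ginf ≤ H) :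
    Car.Sp (mh (rd J ρ)) H (Ideal.Quotient.mk J δ) := by
  intro Z
  obtain ⟨Z, rfl⟩ := ex_lift J Z
  have e : Ideal.Quotient.mk J δ • Z.map (Ideal.Quotient.mk J) =
      (δ • Z).map (Ideal.Quotient.mk J) := by
    ext i j
    simp
  rw [e]
  refine Submodule.span_induction (p := fun W _ => W.map (Ideal.Quotient.mk J) ∈
    Submodule.span (R ⧸ J) (Set.range fun h : H => mh (rd J ρ) h)) ?_ ?_ ?_ ?_ (h Z)
  · rintro _ ⟨g, hg, rfl⟩
    exact Submodule.subset_span ⟨⟨g, hH hg⟩, rfl⟩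
  · rw [Matrix.map_zero _ (map_zero _)]
    exact Submodule.zero_mem _
  · intro a b _ _ ha hb
    rw [Matrix.map_add _ (map_add _)]
    exact Submodule.add_mem _ ha hb
  · intro r a _ ha
    have : (r • a).map (Ideal.Quotient.mk J) =
        Ideal.Quotient.mk J r • a.map (Ideal.Quotient.mk J) := by
      ext i j
      simp
    rw [this]
    exact Submodule.smul_mem _ _ ha

end ring

/-- **torsion count**: the cocycles killed by `t ^ e` are bounded independently of `N` -/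
theorem tors (hF : FINR) {A : Type} [CommRing A] [IsDomain A] [CharP A 2] {t : A} (ht : t ≠ 0)
    (hf : Finite (A ⧸ tI t 1)) {ρ : GQ →* GL (Fin 2) A}
    (ho : ∀ N, IsOpen {g : GQ | rd (tI t N) ρ g = 1}) (T : Finset ℕ) (e : ℕ) : ∃ C : ℕ, ∀ N,
      Nat.card {y : GQ → M2 (A ⧸ tI t N) // y ∈ H1R (rd (tI t N) ρ) T ∧
        Ideal.Quotient.mk (tI t N) (t ^ e) • y = 0} ≤ C := by
  have fin : ∀ N, (H1R (rd (tI t N) ρ) T).Finite := fun N =>
    haveI := fin_tI hf N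
    hF _ _ T (two_q _) (ho N)
  refine ⟨∑ n ∈ Finset.range (e + 1), Nat.card (H1R (rd (tI t n) ρ) T), fun N => ?_⟩
  have le : ∀ n ≤ e, Nat.card (H1R (rd (tI t n) ρ) T) ≤
      ∑ n ∈ Finset.range (e + 1), Nat.card (H1R (rd (tI t n) ρ) T) := fun n hn =>
    Finset.single_le_sum (f := fun n => Nat.card (H1R (rd (tI t n) ρ) T))
      (fun _ _ => Nat.zero_le _) (Finset.mem_range.2 (by omega))
  by_cases hN : N ≤ e
  · exact (Nat.card_mono (fin N) fun y hy => hy.1).trans (le N hN)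
  obtain ⟨k, rfl⟩ : ∃ k, N = k + e := ⟨N - e, by omega⟩
  refine le_trans ?_ (le e le_rfl)
  haveI := (fin e).to_subtype
  choose lf hlf using red_surj (tI t e)
  refine (card_le_range {y : GQ → M2 (A ⧸ tI t (k + e)) | y ∈ H1R (rd (tI t (k + e)) ρ) T ∧
    Ideal.Quotient.mk (tI t (k + e)) (t ^ e) • y = 0}
    (fun z : H1R (rd (tI t e) ρ) T => red (tI t (k + e)) (t ^ k • lf z.1)) ?_).2
  rintro y ⟨hy, h0⟩
  obtain ⟨c, rfl⟩ := red_surj _ y
  have h1 : ∀ g, Dv (t ^ k) (c g) := fun g => by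
    refine Dv.cancel (pow_ne_zero e ht) ?_
    rw [← pow_add, ← dv_iff]
    have := congrFun h0 g
    ext i j
    have := congrFun (congrFun this i) j
    simpa [red] using this
  choose c' hc' using h1
  have e1 : c = t ^ k • c' := funext hc'
  have h2 : ZA ρ T (t ^ e) c' := by
    refine ZA.cancel (pow_ne_zero k ht) ?_
    rw [← pow_add, add_comm, ← e1]
    exact (za_iff _ _).1 hy
  refine ⟨⟨red (tI t e) c', (za_iff _ _).2 h2⟩, funext fun g => ?_⟩
  simp only [red, Pi.smul_apply]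
  rw [dv_iff', hc' g, ← smul_sub, pow_add, mul_comm]
  exact ((dv_iff' _ _ _).1 (congrFun (hlf (red (tI t e) c')) g)).smul _

end P022G.Sel.Bas
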