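import Mathlib

/-!
# P022G, block Sel: the duality count over a finite ring with simple socle
-/

set_option linter.all false

noncomputable section

namespace Vale.Agent.P022G.Sel.H44

/-- one non zero element lies in every non zero ideal -/
def Soc (R : Type*) [CommRing R] : Prop :=
  ∃ s : R, s ≠ 0 ∧ ∀ r : R, r ≠ 0 → r ∣ s

theorem field_dual {K V : Type*} [Field K] [Finite K] [AddCommGroup V] [Module K V] [Finite V]
    (B : LinearMap.BilinForm K V) (hB : B.Nondegenerate) (X Y : Submodule K V)
    (h : ∀ x ∈ X, ∀ y ∈ Y, B x y = 0) : Nat.card X * Nat.card Y ≤ Nat.card V := by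
  haveI : Module.Finite K V := Module.Finite.of_finite
  have h1 : Y ≤ B.orthogonal X := fun y hy x hx => h x hx y hy
  have h2 := LinearMap.BilinForm.finrank_orthogonal hB X
  have h3 := Submodule.finrank_mono h1
  have h4 := Submodule.finrank_le X
  haveI := Fintype.ofFinite K
  rw [Module.natCard_eq_pow_finrank (K := K) (V := X), Module.natCard_eq_pow_finrank (K := K) (V := Y),
    Module.natCard_eq_pow_finrank (K := K) (V := V), ← pow_add]
  exact Nat.pow_le_pow_right Nat.card_pos (by omega)

theorem dual {R : Type*} [CommRing R] [Finite R] (h2 : (2 : R) = 0) (hs : Soc R)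
    {ι : Type*} [Fintype ι] (X Y : Submodule R (ι → R))
    (h : ∀ x ∈ X, ∀ y ∈ Y, ∑ i, x i * y i = 0) :
    Nat.card X * Nat.card Y ≤ Nat.card R ^ Fintype.card ι := by
  classical
  obtain ⟨s, hs0, hs⟩ := hs
  haveI : Nontrivial R := ⟨s, 0, hs0⟩
  haveI : CharP R 2 := CharTwo.of_one_ne_zero_of_two_eq_zero one_ne_zero h2
  letI : Algebra (ZMod 2) R := ZMod.algebra R 2
  haveI : Fact (Nat.Prime 2) := ⟨Nat.prime_two⟩
  obtain ⟨l, hl⟩ : ∃ l : Module.Dual (ZMod 2) R, l s ≠ 0 := by
    by_contra hc
    push Not at hc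
    exact hs0 ((Module.forall_dual_apply_eq_zero_iff (ZMod 2) s).1 hc)
  let B : LinearMap.BilinForm (ZMod 2) (ι → R) := LinearMap.mk₂ (ZMod 2)
    (fun x y => l (∑ i, x i * y i))
    (fun a b c => by simp only [Pi.add_apply, add_mul, Finset.sum_add_distrib, map_add])
    (fun a b c => by
      simp only [Pi.smul_apply, smul_mul_assoc, ← Finset.smul_sum, map_smul])
    (fun a b c => by simp only [Pi.add_apply, mul_add, Finset.sum_add_distrib, map_add])
    (fun a b c => by
      simp only [Pi.smul_apply, mul_smul_comm, ← Finset.smul_sum, map_smul])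
  have hB : ∀ x y, B x y = l (∑ i, x i * y i) := fun _ _ => rfl
  have hsym : ∀ x y, B x y = B y x := fun x y => by
    rw [hB, hB]; exact congrArg l (Finset.sum_congr rfl fun i _ => mul_comm _ _)
  have hl0 : ∀ x, (∀ y, B x y = 0) → x = 0 := by
    intro x hx
    funext i
    by_contra hi
    obtain ⟨c, hc⟩ := hs (x i) hi
    have := hx (Pi.single i c)
    rw [hB, Finset.sum_eq_single i (fun j _ hj => by rw [Pi.single_eq_of_ne hj, mul_zero])
      (fun hh => absurd (Finset.mem_univ i) hh), Pi.single_eq_same, ← hc] at this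
    exact hl this
  have hn : B.Nondegenerate := ⟨hl0, fun y hy => hl0 y fun x => by rw [hsym]; exact hy x⟩
  have := field_dual B hn (X.restrictScalars (ZMod 2)) (Y.restrictScalars (ZMod 2))
    (fun x hx y hy => by rw [hB, h x hx y hy, map_zero])
  rw [Nat.card_fun, Nat.card_eq_fintype_card (α := ι)] at this
  exact this

theorem card_ker_range {R M N : Type*} [Ring R] [AddCommGroup M] [Module R M] [AddCommGroup N]
    [Module R N] (f : M →ₗ[R] N) :
    Nat.card M = Nat.card (LinearMap.range f) * Nat.card (LinearMap.ker f) := by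
  rw [← Nat.card_congr f.quotKerEquivRange.toEquiv, mul_comm]
  exact Submodule.card_eq_card_quotient_mul_card _ |>.trans (by ring)

/-- the map form -/
theorem dual_map {R : Type*} [CommRing R] [Finite R] (h2 : (2 : R) = 0) (hs : Soc R)
    {ι : Type*} [Fintype ι] {M N : Type*} [AddCommGroup M] [Module R M] [AddCommGroup N]
    [Module R N] (f : M →ₗ[R] (ι → R)) (g : N →ₗ[R] (ι → R))
    (h : ∀ x y, ∑ i, f x i * g y i = 0) :
    Nat.card M * Nat.card N ≤ Nat.card R ^ Fintype.card ι *
      (Nat.card (LinearMap.ker f) * Nat.card (LinearMap.ker g)) := by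
  have := dual h2 hs (LinearMap.range f) (LinearMap.range g) (by
    rintro _ ⟨x, rfl⟩ _ ⟨y, rfl⟩; exact h x y)
  rw [card_ker_range f, card_ker_range g]
  calc _ = (Nat.card (LinearMap.range f) * Nat.card (LinearMap.range g)) *
        (Nat.card (LinearMap.ker f) * Nat.card (LinearMap.ker g)) := by ring
    _ ≤ _ := Nat.mul_le_mul_right _ this

/-- a quotient of a discrete valuation ring has a simple socle -/
theorem soc_quot {A : Type*} [CommRing A] [IsDomain A] [IsDiscreteValuationRing A] {t : A}
    (ht : Irreducible t) {N : ℕ} (hN : 0 < N) : Soc (A ⧸ Ideal.span {t ^ N}) := by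
  obtain ⟨n, rfl⟩ : ∃ n, N = n + 1 := ⟨N - 1, by omega⟩
  refine ⟨Ideal.Quotient.mk _ (t ^ n), ?_, ?_⟩
  · rw [Ne, Ideal.Quotient.eq_zero_iff_mem, Ideal.mem_span_singleton,
      pow_dvd_pow_iff ht.ne_zero ht.not_isUnit]
    omega
  · intro r hr
    obtain ⟨a, rfl⟩ := Ideal.Quotient.mk_surjective r
    have ha : a ≠ 0 := fun h => hr (by rw [h, map_zero])
    obtain ⟨k, u, rfl⟩ := IsDiscreteValuationRing.eq_unit_mul_pow_irreducible ha ht
    have hk : k ≤ n := by
      by_contra hk
      apply hr
      rw [Ideal.Quotient.eq_zero_iff_mem, Ideal.mem_span_singleton]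
      exact Dvd.dvd.mul_left (pow_dvd_pow t (by omega)) _
    exact map_dvd _ (by rw [Units.mul_left_dvd]; exact pow_dvd_pow t hk)

/-- a matrix which commutes with a matrix of unit trace is a polynomial in it -/
theorem cent {R : Type*} [CommRing R] (h2 : (2 : R) = 0) (φ x : Matrix (Fin 2) (Fin 2) R) (e : R)
    (he : φ.trace * e = 1) (h : x * φ = φ * x) :
    x = (x 0 0 - x.trace * e * φ 0 0) • (1 : Matrix (Fin 2) (Fin 2) R) + (x.trace * e) • φ := by
  have h01 := congrFun (congrFun h 0) 1
  have h10 := congrFun (congrFun h 1) 0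
  simp only [Matrix.mul_apply, Fin.sum_univ_two, Matrix.trace_fin_two] at h01 h10 he ⊢
  ext i j
  fin_cases i <;> fin_cases j <;>
    simp only [Matrix.add_apply, Matrix.smul_apply, smul_eq_mul, Matrix.one_apply, Fin.zero_eta,
      Fin.mk_one, Fin.isValue, if_true, zero_ne_one, one_ne_zero, if_false, mul_one, mul_zero,
      zero_add]
  · ring
  · linear_combination (-x 0 1) * he - e * h01 + (e * x 0 1 * φ 1 1 - e * x 1 1 * φ 0 1) * h2
  · linear_combination (-x 1 0) * he + e * h10 + (e * x 1 0 * φ 1 1 - e * x 1 1 * φ 1 0) * h2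
  · linear_combination (-(x 0 0 + x 1 1)) * he +
      (-x 0 0 + e * (x 0 0 + x 1 1) * φ 0 0) * h2

/-- the matrix form: `f x i` commutes with `φ i` -/
theorem dualM {R : Type*} [CommRing R] [Finite R] (h2 : (2 : R) = 0) (hs : Soc R)
    {ι : Type*} [Fintype ι] {M N : Type*} [AddCommGroup M] [Module R M] [AddCommGroup N]
    [Module R N] (φ : ι → Matrix (Fin 2) (Fin 2) R) (hφ : ∀ i, IsUnit (φ i).trace)
    (f : M →ₗ[R] (ι → Matrix (Fin 2) (Fin 2) R)) (g : N →ₗ[R] (ι → Matrix (Fin 2) (Fin 2) R))
    (hf : ∀ x i, f x i * φ i = φ i * f x i) (h : ∀ x y, ∑ i, (f x i * g y i).trace = 0) :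
    Nat.card M * Nat.card N ≤ Nat.card R ^ (2 * Fintype.card ι) *
      (Nat.card {x : M // f x = 0} *
        Nat.card {y : N // ∀ i, (g y i).trace = 0 ∧ (φ i * g y i).trace = 0}) := by
  choose e he using fun i => (hφ i).exists_right_inv
  let f' : M →ₗ[R] (ι ⊕ ι → R) :=
    { toFun := fun x => Sum.elim (fun i => f x i 0 0 - (f x i).trace * e i * φ i 0 0)
        (fun i => (f x i).trace * e i)
      map_add' := fun a b => by
        funext k
        rcases k with i | i <;>
          simp only [map_add, Pi.add_apply, Sum.elim_inl, Sum.elim_inr, Matrix.add_apply,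
            Matrix.trace_add] <;> ring
      map_smul' := fun a b => by
        funext k
        rcases k with i | i <;>
          simp only [map_smul, Pi.smul_apply, Sum.elim_inl, Sum.elim_inr, Matrix.smul_apply,
            Matrix.trace_smul, smul_eq_mul, RingHom.id_apply] <;> ring }
  let g' : N →ₗ[R] (ι ⊕ ι → R) :=
    { toFun := fun y => Sum.elim (fun i => (g y i).trace) (fun i => (φ i * g y i).trace)
      map_add' := fun a b => by
        funext k
        rcases k with i | i <;>
          simp only [map_add, Pi.add_apply, Sum.elim_inl, Sum.elim_inr, mul_add, Matrix.trace_add]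
      map_smul' := fun a b => by
        funext k
        rcases k with i | i <;>
          simp only [map_smul, Pi.smul_apply, Sum.elim_inl, Sum.elim_inr, Matrix.mul_smul,
            Matrix.trace_smul, smul_eq_mul, RingHom.id_apply] }
  have key := dual_map h2 hs f' g' (fun x y => by
    rw [Fintype.sum_sum_type, ← Finset.sum_add_distrib, ← h x y]
    refine Finset.sum_congr rfl fun i _ => ?_
    show (f x i 0 0 - (f x i).trace * e i * φ i 0 0) * (g y i).trace +
      (f x i).trace * e i * (φ i * g y i).trace = _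
    conv_rhs => rw [cent h2 (φ i) (f x i) (e i) (he i) (hf x i)]
    rw [add_mul, Matrix.smul_mul, Matrix.smul_mul, one_mul, Matrix.trace_add, Matrix.trace_smul,
      Matrix.trace_smul, smul_eq_mul, smul_eq_mul])
  have e1 : Nat.card (LinearMap.ker f') = Nat.card {x : M // f x = 0} := by
    refine Nat.card_congr (Equiv.subtypeEquivRight fun x => ?_)
    rw [LinearMap.mem_ker]
    constructor
    · intro hx
      funext i
      have a1 : f x i 0 0 - (f x i).trace * e i * φ i 0 0 = 0 := congrFun hx (Sum.inl i)
      have a2 : (f x i).trace * e i = 0 := congrFun hx (Sum.inr i)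
      rw [cent h2 (φ i) (f x i) (e i) (he i) (hf x i), a1, a2, zero_smul, zero_smul, add_zero]
      rfl
    · intro hx
      funext k
      rcases k with i | i
      · show f x i 0 0 - (f x i).trace * e i * φ i 0 0 = 0
        rw [hx]; simp
      · show (f x i).trace * e i = 0
        rw [hx]; simp
  have e2 : Nat.card (LinearMap.ker g') =
      Nat.card {y : N // ∀ i, (g y i).trace = 0 ∧ (φ i * g y i).trace = 0} := by
    refine Nat.card_congr (Equiv.subtypeEquivRight fun y => ?_)
    rw [LinearMap.mem_ker]
    constructor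
    · intro hy i
      exact ⟨congrFun hy (Sum.inl i), congrFun hy (Sum.inr i)⟩
    · intro hy
      funext k
      rcases k with i | i
      · exact (hy i).1
      · exact (hy i).2
  rw [e1, e2, Fintype.card_sum, ← two_mul] at key
  exact key

end Vale.Agent.P022G.Sel.H44
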