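import Vale.Agent.P022G.Sel.Bas
import Vale.Agent.P022E.Sel.AuxQ

/-! P022G, block Sel: a prime whose Frobenius element has a small trace. -/

set_option linter.all false

noncomputable section

namespace P022G.Sel.H96

open NumberField
open Vale.Agent.P022
open Vale.Agent.P022D.Sel (M2)
open Vale.Agent.P022E.GW (Ov Fb)
open P022G.Sel.Bas

variable {A : Type} [CommRing A]

/-- the trace is smaller than an entry off the diagonal -/
def SM (t : A) (x : M2 A) (e : ℕ) : Prop :=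
  t ^ (e + 1) ∣ x.trace ∧ (¬ t ^ (e + 1) ∣ x 0 1 ∨ ¬ t ^ (e + 1) ∣ x 1 0)

/-- every matrix is diagonal or antidiagonal modulo `t` -/
def Shp (t : A) (ρ : GQ →* GL (Fin 2) A) : Prop :=
  ∀ g, (t ∣ mr ρ g 0 1 ∧ t ∣ mr ρ g 1 0) ∨ (t ∣ mr ρ g 0 0 ∧ t ∣ mr ρ g 1 1)

theorem mem_tI {t x : A} {N : ℕ} : x ∈ tI t N ↔ t ^ N ∣ x := Ideal.mem_span_singleton

theorem mk0 {t x : A} {N : ℕ} : Ideal.Quotient.mk (tI t N) x = 0 ↔ t ^ N ∣ x := by
  rw [Ideal.Quotient.eq_zero_iff_mem, mem_tI]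

theorem not_comm [IsDomain A] {t : A} {ρ : GQ →* GL (Fin 2) A} {T D} (h : Nice t ρ T D) {s : GQ}
    (hs : IsUnit (mr ρ s).trace) [CharP A 2] :
    ∃ g, mr ρ s * mr ρ g - mr ρ g * mr ρ s ≠ 0 := by
  by_contra hc
  push Not at hc
  obtain ⟨δ, h0, hδ⟩ := h.irr
  have k : ∀ Z : M2 A, δ • (mr ρ s * Z - Z * mr ρ s) = 0 := fun Z => by
    have : ∀ Y ∈ Submodule.span A (mr ρ '' (Vale.Agent.P022D.Sel.Ginf : Set GQ)),
        mr ρ s * Y - Y * mr ρ s = 0 := by
      intro Y hY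
      induction hY using Submodule.span_induction with
      | mem x hx => obtain ⟨g, -, rfl⟩ := hx; exact hc g
      | zero => simp
      | add x y _ _ hx hy =>
        rw [mul_add, add_mul, add_sub_add_comm, hx, hy, add_zero]
      | smul a x _ hx => rw [mul_smul_comm, smul_mul_assoc, ← smul_sub, hx, smul_zero]
    have e := this _ (hδ Z)
    rwa [mul_smul_comm, smul_mul_assoc, ← smul_sub] at e
  have e := congrFun (congrFun (k !![0, 1; 0, 0]) 0) 1
  have e' : δ * (mr ρ s 0 0 - mr ρ s 1 1) = 0 := by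
    simpa [Matrix.mul_apply, Fin.sum_univ_two, Matrix.vecMul, dotProduct] using e
  rcases mul_eq_zero.1 e' with e | e
  · exact h0 e
  · rw [Matrix.trace_fin_two, sub_eq_zero.1 e, CharTwo.add_self_eq_zero] at hs
    exact not_isUnit_zero hs

variable [IsDomain A] [IsDiscreteValuationRing A] [CharP A 2] {t : A}

theorem un (ht : Irreducible t) {x : A} (h : ¬ t ∣ x) : IsUnit x := by
  by_contra hx
  refine h (Ideal.mem_span_singleton.1 ?_)
  rw [← ht.maximalIdeal_eq]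
  exact hx

theorem nun (ht : Irreducible t) {x : A} (h : t ∣ x) : ¬ IsUnit x :=
  fun hx => ht.not_isUnit (isUnit_of_dvd_unit h hx)

theorem ex_val (ht : Irreducible t) {W : M2 A} (hW : W ≠ 0) :
    ∃ e : ℕ, (∀ i j, t ^ e ∣ W i j) ∧ ¬ ∀ i j, t ^ (e + 1) ∣ W i j := by
  classical
  have hex : ∃ e : ℕ, ¬ ∀ i j, t ^ (e + 1) ∣ W i j := by
    by_contra hc
    push Not at hc
    refine hW (Matrix.ext fun i j => ?_)
    by_contra h0
    obtain ⟨n, u, hu⟩ := IsDiscreteValuationRing.eq_unit_mul_pow_irreducible h0 ht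
    have h1 := hc n i j
    rw [hu, pow_succ, mul_comm (u : A), mul_dvd_mul_iff_left (pow_ne_zero _ ht.ne_zero)] at h1
    exact nun ht h1 u.isUnit
  refine ⟨Nat.find hex, ?_, Nat.find_spec hex⟩
  rcases Nat.eq_zero_or_pos (Nat.find hex) with h | h
  · rw [h]; simp
  · have := Nat.find_min hex (Nat.sub_lt h one_pos)
    rw [not_not, show Nat.find hex - 1 + 1 = Nat.find hex by omega] at this
    exact this

theorem ex_sm (ht : Irreducible t) {ρ : GQ →* GL (Fin 2) A} {T D} (h : Nice t ρ T D)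
    (hS : Shp t ρ) : ∃ g e, SM t (mr ρ g) e := by
  have h2 : (2 : A) = 0 := CharTwo.two_eq_zero
  by_cases ha : ∃ g, t ∣ mr ρ g 0 0 ∧ t ∣ mr ρ g 1 1
  · obtain ⟨g, a, b⟩ := ha
    refine ⟨g, 0, ?_, Or.inl fun c => ?_⟩
    · rw [zero_add, pow_one, Matrix.trace_fin_two]; exact dvd_add a b
    · rw [zero_add, pow_one] at c
      refine nun ht ?_ (isUnit_one (M := A))
      rw [← h.det g, Matrix.det_fin_two]
      exact dvd_sub (a.mul_right _) (c.mul_right _)
  have hd : ∀ g, t ∣ mr ρ g 0 1 ∧ t ∣ mr ρ g 1 0 := fun g =>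
    (hS g).resolve_right fun c => ha ⟨g, c⟩
  obtain ⟨s, -, hs, -⟩ := h.reg
  obtain ⟨g, hg⟩ := not_comm h hs
  obtain ⟨e, e1, e2⟩ := ex_val ht hg
  set W := mr ρ s * mr ρ g - mr ρ g * mr ρ s with hW
  set V := mr ρ (g * s)⁻¹ with hV
  have w0 : W 0 0 * (mr ρ s).trace = W 0 1 * mr ρ s 1 0 + W 1 0 * mr ρ s 0 1 := by
    simp only [hW, Matrix.sub_apply, Matrix.mul_apply, Fin.sum_univ_two, Matrix.trace_fin_two]
    linear_combination (mr ρ s 0 1 * mr ρ g 1 0 * mr ρ s 0 0 - mr ρ g 0 1 * mr ρ s 1 0 * mr ρ s 0 0) * h2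
  have w1 : W 1 1 = - W 0 0 := by
    simp only [hW, Matrix.sub_apply, Matrix.mul_apply, Fin.sum_univ_two]; ring
  have d0 : t ^ (e + 1) ∣ W 0 0 := by
    rw [← hs.dvd_mul_right, w0, pow_succ]
    exact dvd_add (mul_dvd_mul (e1 _ _) (hd s).2) (mul_dvd_mul (e1 _ _) (hd s).1)
  have d1 : t ^ (e + 1) ∣ W 1 1 := by rw [w1]; exact d0.neg_right
  have eV : mr ρ (s * g * (g * s)⁻¹) = 1 + W * V := by
    rw [hW, sub_mul, ← mm g s, hV, mi', mm, mm]; abel
  have dV : V.det = 1 := h.det _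
  have u : IsUnit (V 0 0 * V 1 1) := by
    refine un ht fun c => nun ht ?_ (isUnit_one (M := A))
    rw [← dV, Matrix.det_fin_two]
    exact dvd_sub c ((hd _).1.mul_right _)
  refine ⟨s * g * (g * s)⁻¹, e, ?_, ?_⟩
  · have : (1 + W * V).trace = W 0 0 * V 0 0 + W 0 1 * V 1 0 + (W 1 0 * V 0 1 + W 1 1 * V 1 1) := by
      simp only [Matrix.trace_fin_two, Matrix.add_apply, Matrix.mul_apply, Fin.sum_univ_two,
        Matrix.one_apply_eq]
      linear_combination h2
    rw [eV, this]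
    refine dvd_add (dvd_add (d0.mul_right _) ?_) (dvd_add ?_ (d1.mul_right _))
    · rw [pow_succ]; exact mul_dvd_mul (e1 _ _) (hd _).2
    · rw [pow_succ]; exact mul_dvd_mul (e1 _ _) (hd _).1
  · by_contra hc
    push Not at hc
    obtain ⟨c1, c2⟩ := hc
    rw [eV] at c1 c2
    simp only [Matrix.add_apply, Matrix.mul_apply, Fin.sum_univ_two, Matrix.one_apply_ne
      (by decide : (0 : Fin 2) ≠ 1), Matrix.one_apply_ne (by decide : (1 : Fin 2) ≠ 0),
      zero_add] at c1 c2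
    have f1 : t ^ (e + 1) ∣ W 0 1 := by
      rw [← (isUnit_of_mul_isUnit_right u).dvd_mul_right]
      exact (dvd_add_right (d0.mul_right _)).1 c1
    have f2 : t ^ (e + 1) ∣ W 1 0 := by
      rw [← (isUnit_of_mul_isUnit_left u).dvd_mul_right]
      exact (dvd_add_left (d1.mul_right _)).1 c2
    refine e2 fun i j => ?_
    fin_cases i <;> fin_cases j
    exacts [d0, f1, f2, d1]

/-- **the small trace prime** -/
theorem smt (ht : Irreducible t) {ρ : GQ →* GL (Fin 2) A} {T D} (h : Nice t ρ T D)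
    (hS : Shp t ρ) (S : Finset ℕ) : ∃ l ∉ S, l ≠ 2 ∧ ∃ (P : Ideal (𝓞 Qb)) (φ : GQ) (e : ℕ),
      Ov l P ∧ Fb l P φ ∧ SM t (mr ρ φ) e := by
  obtain ⟨g, e, h1, h2⟩ := ex_sm ht h hS
  set r := rd (tI t (e + 1)) ρ with hr
  obtain ⟨q, φ, k, m, o, q1, q2, ⟨P, p1, p2, p3⟩, k1, -, m1, hv, -⟩ :=
    Vale.Agent.P022D.Sel.AuxP.key Vale.Agent.P027M.TW.dens r.ker (h.lv (e + 1)).opn
      (insert 2 S) g 3 Nat.prime_three (by norm_num)
  have t0 : mr r g 0 0 + mr r g 1 1 = 0 := by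
    have := mk0.2 h1
    rwa [Matrix.trace_fin_two, map_add] at this
  have dd : mr r g 0 0 * mr r g 1 1 - mr r g 0 1 * mr r g 1 0 = 1 := by
    have := congrArg (Ideal.Quotient.mk (tI t (e + 1))) (h.det g)
    rwa [Matrix.det_fin_two, map_sub, map_mul, map_mul, map_one] at this
  have tw := two_q (R := A) (tI t (e + 1))
  have sq : r g ^ 2 = 1 := by
    refine Units.ext ?_
    rw [pow_two]
    change mr r g * mr r g = 1
    ext i j
    fin_cases i <;> fin_cases j <;> simp only [Matrix.mul_apply, Fin.sum_univ_two] <;> simp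
    · linear_combination mr r g 0 0 * t0 - dd - tw
    · linear_combination mr r g 0 1 * t0
    · linear_combination mr r g 1 0 * t0
    · linear_combination mr r g 1 1 * t0 - dd - tw
  have eq : r φ = r g := by
    obtain ⟨j, hj⟩ := k1.mul m1
    have := MonoidHom.mem_ker.1 hv
    rw [map_mul, map_inv, map_pow, hj, pow_succ, pow_mul, sq, one_pow, one_mul,
      inv_mul_eq_one] at this
    exact this
  have en : ∀ i j, Ideal.Quotient.mk (tI t (e + 1)) (mr ρ φ i j) =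
      Ideal.Quotient.mk (tI t (e + 1)) (mr ρ g i j) := fun i j =>
    congrArg (fun Y : GL (Fin 2) (A ⧸ tI t (e + 1)) => (Y : M2 (A ⧸ tI t (e + 1))) i j) eq
  refine ⟨q, fun c => q2 (Finset.mem_insert_of_mem c), fun c => q2 (c ▸ Finset.mem_insert_self _ _),
    P, φ, e, ⟨q1, p1, p2⟩, p3, ?_, ?_⟩
  · rw [← mk0, Matrix.trace_fin_two, map_add, en, en, ← map_add, ← Matrix.trace_fin_two, mk0]
    exact h1
  · rw [← mk0, ← mk0, en, en, mk0, mk0]
    exact h2

/-- a matrix which commutes with a small trace matrix modulo `t ^ N` has no unit trace -/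
theorem SM.dvd (ht : Irreducible t) {x : M2 A} {e N : ℕ} (h : SM t x e) (hN : e < N) {Y : M2 A}
    (hY : ∀ i j, t ^ N ∣ (x * Y - Y * x) i j) : t ∣ Y.trace := by
  have h2 : (2 : A) = 0 := CharTwo.two_eq_zero
  by_contra hc
  have u := un ht hc
  have p : t ^ (e + 1) ∣ t ^ N := pow_dvd_pow t hN
  rcases h.2 with c | c
  · refine c ?_
    have e1 : x 0 1 * Y.trace = (x * Y - Y * x) 0 1 + x.trace * Y 0 1 := by
      simp only [Matrix.sub_apply, Matrix.mul_apply, Fin.sum_univ_two, Matrix.trace_fin_two]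
      linear_combination (x 0 1 * Y 0 0 - x 0 0 * Y 0 1) * h2
    rw [← u.dvd_mul_right, e1]
    exact dvd_add (p.trans (hY _ _)) (h.1.mul_right _)
  · refine c ?_
    have e1 : x 1 0 * Y.trace = (x * Y - Y * x) 1 0 + x.trace * Y 1 0 := by
      simp only [Matrix.sub_apply, Matrix.mul_apply, Fin.sum_univ_two, Matrix.trace_fin_two]
      linear_combination (x 1 0 * Y 1 1 - x 1 1 * Y 1 0) * h2
    rw [← u.dvd_mul_right, e1]
    exact dvd_add (p.trans (hY _ _)) (h.1.mul_right _)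

theorem SM.nunit (ht : Irreducible t) {ρ : GQ →* GL (Fin 2) A} {φ : GQ} {e N : ℕ}
    (h : SM t (mr ρ φ) e) (hN : e < N) {y : M2 (A ⧸ tI t N)}
    (hy : mr (rd (tI t N) ρ) φ * y = y * mr (rd (tI t N) ρ) φ) :
    ∃ a : A, y.trace = Ideal.Quotient.mk (tI t N) (t * a) := by
  choose Y hY using fun i j => Ideal.Quotient.mk_surjective (y i j)
  have eY : y = (Matrix.of Y).map (Ideal.Quotient.mk (tI t N)) := by
    ext i j; exact (hY i j).symm
  have k := h.dvd ht hN (Y := Matrix.of Y) fun i j => by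
    rw [← mk0]
    have := congrFun (congrFun (sub_eq_zero.2 hy) i) j
    rw [eY, mr_rd, ← Matrix.map_mul, ← Matrix.map_mul] at this
    rw [Matrix.sub_apply, map_sub]
    exact this
  obtain ⟨a, ha⟩ := k
  refine ⟨a, ?_⟩
  rw [← ha, eY, Matrix.trace_fin_two, Matrix.trace_fin_two, map_add]
  rfl

end P022G.Sel.H96
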