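import Vale.Agent.P022G.Sel.Defs
import Vale.Agent.P022E.Sel.AuxQ

/-! P022G, block Sel, row AUXR: existence of the auxiliary primes. -/

set_option linter.all false

noncomputable section

namespace P022G.Sel

open Vale.Agent.P022
open Vale.Agent.P022D.Sel (M2)

namespace Auxr

theorem odd_p {F : Type} [Field F] [CharP F 2] {ψ : F} (ψ1 : ψ ≠ 1) :
    ∃ p : ℕ, p.Prime ∧ p ≠ 2 ∧ p ∣ orderOf ψ := by
  have t1 : orderOf ψ ≠ 1 := fun e => ψ1 (orderOf_eq_one_iff.1 e)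
  by_cases t0 : orderOf ψ = 0
  · exact ⟨3, Nat.prime_three, by norm_num, t0 ▸ dvd_zero 3⟩
  · refine ⟨(orderOf ψ).minFac, Nat.minFac_prime t1, fun e => ?_, Nat.minFac_dvd _⟩
    obtain ⟨j, hj⟩ : 2 ∣ orderOf ψ := e ▸ Nat.minFac_dvd _
    have h2 : (ψ ^ j - 1) ^ 2 = 0 := by
      have h3 : (ψ ^ j) ^ 2 = 1 := by rw [← pow_mul, mul_comm, ← hj, pow_orderOf_eq_one]
      have h4 : (2 : F) = 0 := CharTwo.two_eq_zero
      linear_combination h3 + (1 - ψ ^ j) * h4
    have h5 : orderOf ψ ∣ j :=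
      orderOf_dvd_iff_pow_eq_one.2 (sub_eq_zero.1 (pow_eq_zero_iff two_ne_zero |>.1 h2))
    have := Nat.le_of_dvd (by omega) h5
    omega

theorem eig {F : Type} [Field F] [IsAlgClosed F] (s d : F) : ∃ a b : F, s = a + b ∧ d = a * b := by
  obtain ⟨a, ha⟩ := IsAlgClosed.exists_root
    (Polynomial.C 1 * Polynomial.X ^ 2 + Polynomial.C (-s) * Polynomial.X + Polynomial.C d)
    (by rw [Polynomial.degree_quadratic one_ne_zero]; decide)
  simp only [Polynomial.IsRoot.def, Polynomial.eval_add, Polynomial.eval_mul, Polynomial.eval_C,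
    Polynomial.eval_pow, Polynomial.eval_X] at ha
  exact ⟨a, s - a, by ring, by linear_combination ha⟩

end Auxr

open Vale.Agent.P022D.Sel.AuxP IsLocalRing in
theorem auxrC : AUXR := by
  intro A _ _ _ _ t ρ T D ht _ h U S σ hU hσ
  have hm : maximalIdeal A = tI t 1 := by
    rw [tI, pow_one]; exact ht.maximalIdeal_eq
  let F := AlgebraicClosure (ResidueField A)
  let f : A →+* F := (algebraMap (ResidueField A) F).comp (residue A)
  have hf : ∀ x, f x = 0 ↔ ¬ IsUnit x := fun x => by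
    rw [RingHom.comp_apply, map_eq_zero_iff _ (RingHom.injective _), residue_eq_zero_iff,
      mem_maximalIdeal, mem_nonunits_iff]
  haveI : CharP F 2 := CharTwo.of_one_ne_zero_of_two_eq_zero one_ne_zero (by
    rw [← map_ofNat f 2, show (OfNat.ofNat 2 : A) = 0 from CharTwo.two_eq_zero, map_zero])
  let X : GQ →* M2 F := (f.mapMatrix : M2 A →+* M2 F).toMonoidHom.comp
    ((Units.coeHom (M2 A)).comp ρ)
  have Xt : ∀ g, (X g).trace = f (mr ρ g).trace := fun g => by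
    rw [Matrix.trace_fin_two, Matrix.trace_fin_two, map_add]; rfl
  have Xd : ∀ g, (X g).det = 1 := fun g => by
    rw [← map_one f, ← h.det g, RingHom.map_det]; rfl
  have X1 : ∀ g, rd (tI t 1) ρ g = 1 → X g = 1 := fun g hg => by
    ext i j
    have e : Ideal.Quotient.mk (tI t 1) (mr ρ g i j) =
        (1 : M2 (A ⧸ tI t 1)) i j :=
      congrArg (fun Y : GL (Fin 2) (A ⧸ tI t 1) => (Y : M2 (A ⧸ tI t 1)) i j) hg
    have e2 : (1 : M2 (A ⧸ tI t 1)) i j = Ideal.Quotient.mk (tI t 1) ((1 : M2 A) i j) := by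
      simp only [Matrix.one_apply]; split_ifs <;> simp
    rw [e2, Ideal.Quotient.eq, ← hm, mem_maximalIdeal, mem_nonunits_iff, ← hf, map_sub,
      sub_eq_zero] at e
    refine Eq.trans e ?_
    simp only [Matrix.one_apply]; split_ifs <;> simp
  have hV : IsOpen ((U ⊓ (rd (tI t 1) ρ).ker : Subgroup GQ) : Set GQ) := hU.inter (h.lv 1).opn
  obtain ⟨a, b, h1, h2⟩ := Auxr.eig (X σ).trace (X σ).det
  have y0 : b ≠ 0 := fun e => by
    rw [Xd, e, mul_zero] at h2
    exact one_ne_zero h2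
  set ψ : F := a / b with hψ
  have hsc : ∀ j : ℕ, (X (σ ^ j)).trace = 0 → ψ ^ j = 1 := fun j hj => by
    have e := (Vale.Agent.P022E.Sel.tr_pow_eig h1 h2 j).1
    rw [← map_pow, hj, eq_comm, CharTwo.add_eq_zero] at e
    rw [hψ, div_pow, e, div_self (pow_ne_zero _ y0)]
  have ψ1 : ψ ≠ 1 := fun e => (hf _).1 (by
    rw [← Xt, h1, (div_eq_one_iff_eq y0).1 e, CharTwo.add_self_eq_zero]) hσ
  obtain ⟨p, hp, p2, hpt⟩ := Auxr.odd_p ψ1
  obtain ⟨q, φ, k, m, o, q1, q2, q3, k1, k2, m1, hv, hc, ho⟩ :=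
    key Vale.Agent.P027M.TW.dens _ hV S σ p hp p2
  refine ⟨q, q1, q2, φ, k * m, q3, k1.mul m1, hv.1, ?_⟩
  by_contra hs
  refine k2 (hpt.trans ?_)
  have e0 : X (σ ^ (k * m)) = X φ := by
    rw [← mul_inv_cancel_left φ (σ ^ (k * m)), map_mul, X1 _ hv.2, mul_one]
  have e1 : (ψ ^ k) ^ m = 1 := by
    rw [← pow_mul]
    exact hsc _ (by rw [e0, Xt]; exact (hf _).2 hs)
  have e2 : (ψ ^ k) ^ o = 1 := by
    rw [← pow_mul]
    refine hsc _ ?_
    rw [pow_mul, X1 _ ho.2, Matrix.trace_fin_two]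
    exact CharTwo.add_self_eq_zero _
  have e3 := Nat.dvd_gcd (orderOf_dvd_iff_pow_eq_one.2 e1) (orderOf_dvd_iff_pow_eq_one.2 e2)
  rw [hc.gcd_eq_one, Nat.dvd_one, orderOf_eq_one_iff] at e3
  exact orderOf_dvd_iff_pow_eq_one.2 e3

end P022G.Sel
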