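import Vale.Agent.P022G.Sel.Defs
import Vale.Agent.P022D.W.Tame

/-!
# P022G, block Sel: enlarging the set of framed places, coefficients in a finite ring
-/

set_option linter.all false

noncomputable section

namespace P022G.Sel.H9

open NumberField
open Vale.Agent.P022
open Vale.Agent.P027M.S (Inert)
open Vale.Agent.P022D.Sel (M2 IsDec Stab)
open Vale.Agent.P022E.GW (Ov Op)

variable {R : Type} [CommRing R] {ρ : GQ →* GL (Fin 2) R}

theorem mrm (g h : GQ) : mr ρ (g * h) = mr ρ g * mr ρ h := congrArg Units.val (map_mul ρ g h)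

theorem mr1 {g : GQ} (hg : ρ g = 1) : mr ρ g = 1 := congrArg Units.val hg

theorem mr1' {g : GQ} (hg : ρ g = 1) : mr ρ g⁻¹ = 1 := mr1 (by rw [map_inv, hg, inv_one])

theorem coc_pow {c : GQ → M2 R} (hc : Co ρ c)
    {φ : GQ} {X : M2 R} (hX : c φ = X - mr ρ φ * X * mr ρ φ⁻¹) (k : ℕ) :
    c (φ ^ k) = X - mr ρ (φ ^ k) * X * mr ρ (φ ^ k)⁻¹ := by
  induction k with
  | zero =>
    have h := hc 1 1
    rw [mul_one, inv_one, mr1 (map_one ρ), one_mul, mul_one] at h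
    rw [pow_zero, inv_one, mr1 (map_one ρ), one_mul, mul_one, sub_self]
    exact left_eq_add.1 h
  | succ k ih =>
    rw [pow_succ', hc, ih, hX, mul_inv_rev, mrm, mrm]
    noncomm_ring

variable (ρ) in
/-- the invariants of the inertia group -/
def MI (P : Ideal (𝓞 Qb)) : AddSubgroup (M2 R) where
  carrier := {X | ∀ s, Inert P s → mr ρ s * X * mr ρ s⁻¹ = X}
  add_mem' {X Y} hX hY s hs := by rw [mul_add, add_mul, hX s hs, hY s hs]
  zero_mem' s _ := by simp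
  neg_mem' {X} hX s hs := by rw [mul_neg, neg_mul, hX s hs]

theorem MI_conj {P : Ideal (𝓞 Qb)} {φ : GQ} (hφ : Stab P φ) {X : M2 R} (hX : X ∈ MI ρ P) :
    mr ρ φ * X * mr ρ φ⁻¹ ∈ MI ρ P := by
  intro s hs
  have h1 : Inert P (φ⁻¹ * s * φ⁻¹⁻¹) :=
    Vale.Agent.P022D.W.conj_inP (g := φ⁻¹) ((Vale.Agent.P022D.W.dec P).inv_mem hφ) hs
  have h2 := hX _ h1
  have e : s * φ = φ * (φ⁻¹ * s * φ⁻¹⁻¹) := by group
  calc mr ρ s * (mr ρ φ * X * mr ρ φ⁻¹) * mr ρ s⁻¹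
      = mr ρ (s * φ) * X * mr ρ (s * φ)⁻¹ := by
        rw [mul_inv_rev, mrm, mrm]; noncomm_ring
    _ = mr ρ φ * (mr ρ (φ⁻¹ * s * φ⁻¹⁻¹) * X * mr ρ (φ⁻¹ * s * φ⁻¹⁻¹)⁻¹) * mr ρ φ⁻¹ := by
        rw [e, mul_inv_rev φ, mrm φ, mrm _ φ⁻¹]; noncomm_ring
    _ = _ := by rw [h2]

theorem coc_MI {c : GQ → M2 R} (hc : Co ρ c)
    {P : Ideal (𝓞 Qb)} (hcu : ∀ g, Inert P g → c g = 0) {φ : GQ} (hφ : Stab P φ) :
    c φ ∈ MI ρ P := by
  intro s hs
  have h1 : Inert P (φ⁻¹ * s * φ⁻¹⁻¹) :=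
    Vale.Agent.P022D.W.conj_inP (g := φ⁻¹) ((Vale.Agent.P022D.W.dec P).inv_mem hφ) hs
  have e : s * φ = φ * (φ⁻¹ * s * φ⁻¹⁻¹) := by group
  have h2 := hc s φ
  rw [e, hc, hcu _ h1, hcu s hs] at h2
  simpa using h2.symm

theorem coc_dec (hρ : IsOpen {g : GQ | ρ g = 1}) {c : GQ → M2 R} (hc : Co ρ c) (ho : Op c)
    {l : ℕ} (hl : l.Prime) {P : Ideal (𝓞 Qb)} (hP : P.IsPrime) (hlP : (l : 𝓞 Qb) ∈ P)
    (hcu : ∀ g, Inert P g → c g = 0)
    {φ : GQ} (hφ : ∀ x : 𝓞 Qb, φ • x - x ^ l ∈ P) {X : M2 R} (hXI : X ∈ MI ρ P)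
    (hX : c φ = X - mr ρ φ * X * mr ρ φ⁻¹) {g : GQ} (hg : Stab P g) :
    c g = X - mr ρ g * X * mr ρ g⁻¹ := by
  obtain ⟨U, hU, hU0⟩ := ho
  have hV : IsOpen ((U ⊓ ρ.ker : Subgroup GQ) : Set GQ) := hU.inter hρ
  obtain ⟨k, s, u, hs, hu', rfl⟩ := Vale.Agent.P022D.W.dec_gen hl hP hlP hφ hg _ hV
  have h1 : ρ u = 1 := hu'.2
  have e1 : mr ρ (u * φ ^ k * s) * X * mr ρ (u * φ ^ k * s)⁻¹ =
      mr ρ (φ ^ k) * (mr ρ s * X * mr ρ s⁻¹) * mr ρ (φ ^ k)⁻¹ := by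
    rw [mul_inv_rev, mul_inv_rev, mrm, mrm, mrm, mrm, mr1 h1, mr1' h1]; noncomm_ring
  rw [e1, hXI s hs, hc, hcu s hs, hc, hU0 u hu'.1, mr1 h1, mr1' h1, coc_pow hc hX]
  simp

variable (ρ) in
/-- the tangent vectors as a group -/
def TanG (T Q : Finset ℕ) (D : ℕ → Set GQ) : AddSubgroup ((GQ → M2 R) × (ℕ → M2 R)) where
  carrier := TanS ρ T Q D
  add_mem' {x y} hx hy := ⟨fun g h => by
      simp only [Prod.fst_add, Pi.add_apply]
      rw [hx.coc g h, hy.coc g h, mul_add, add_mul]; abel,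
    hx.opn.add hy.opn,
    fun l h1 h2 P hP g hg => by
      simp only [Prod.fst_add, Pi.add_apply]
      rw [hx.unr l h1 h2 P hP g hg, hy.unr l h1 h2 P hP g hg, add_zero],
    fun l hl g hg => by
      simp only [Prod.fst_add, Prod.snd_add, Pi.add_apply]
      rw [hx.loc l hl g hg, hy.loc l hl g hg, mul_add, add_mul]; abel,
    fun l hl => by
      simp only [Prod.snd_add, Pi.add_apply]
      rw [hx.zero l hl, hy.zero l hl, add_zero]⟩
  zero_mem' := ⟨fun g h => by simp, ⟨⊤, isOpen_univ, fun _ _ => rfl⟩,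
    fun _ _ _ _ _ _ _ => rfl, fun _ _ _ _ => by simp, fun _ _ => rfl⟩
  neg_mem' {x} hx := ⟨fun g h => by
      simp only [Prod.fst_neg, Pi.neg_apply]
      rw [hx.coc g h, mul_neg, neg_mul]; abel,
    hx.opn.imp fun U hU => ⟨hU.1, fun σ hσ => by
      simp only [Prod.fst_neg, Pi.neg_apply]; rw [hU.2 σ hσ, neg_zero]⟩,
    fun l h1 h2 P hP g hg => by
      simp only [Prod.fst_neg, Pi.neg_apply]
      rw [hx.unr l h1 h2 P hP g hg, neg_zero],
    fun l hl g hg => by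
      simp only [Prod.fst_neg, Prod.snd_neg, Pi.neg_apply]
      rw [hx.loc l hl g hg, mul_neg, neg_mul]; abel,
    fun l hl => by
      simp only [Prod.snd_neg, Pi.neg_apply]
      rw [hx.zero l hl, neg_zero]⟩

/-- counting with a homomorphism `Z × M →+ M` -/
theorem cnt {Z M : Type} [AddCommGroup Z] [AddCommGroup M] [Finite M] (Λ : Z × M →+ M)
    [Finite Λ.ker] : Finite Z ∧ Nat.card Z ≤ Nat.card Λ.ker := by
  have h1 : Finite ((Z × M) ⧸ Λ.ker) :=
    Finite.of_injective _ (QuotientAddGroup.kerLift_injective Λ)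
  have h2 : Finite (Z × M) := Finite.of_addSubgroup_quotient Λ.ker
  have h3 : Finite Z := Finite.of_injective (fun z => ((z, 0) : Z × M))
    fun a b h => congrArg Prod.fst h
  refine ⟨h3, ?_⟩
  have h4 := AddSubgroup.card_eq_card_quotient_mul_card_addSubgroup Λ.ker
  have h5 : Nat.card ((Z × M) ⧸ Λ.ker) ≤ Nat.card M :=
    Nat.card_le_card_of_injective _ (QuotientAddGroup.kerLift_injective Λ)
  rw [Nat.card_prod] at h4
  refine Nat.le_of_mul_le_mul_right ?_ (Nat.card_pos (α := M))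
  rw [h4, mul_comm (Nat.card Λ.ker)]
  exact Nat.mul_le_mul_right _ h5

/-- **One more framed place**, ramified or not. -/
theorem enl [Finite R] (hρ : IsOpen {g : GQ | ρ g = 1}) {T Q : Finset ℕ} {D : ℕ → Set GQ} {l : ℕ}
    (hl : l.Prime) (hT : l ∉ T) (hQ : l ∉ Q)
    (hD : IsDec l (D l)) (h : (TanS ρ (insert l T) Q D).Finite) :
    (TanS ρ T Q D).Finite ∧ Nat.card (TanS ρ T Q D) ≤ Nat.card (TanS ρ (insert l T) Q D) := by
  classical
  obtain ⟨h0, -⟩ | ⟨-, P, hP, hlP, hDl⟩ := hD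
  · exact absurd h0 hl.ne_zero
  obtain ⟨φ, hφ⟩ := Vale.Agent.P022D.W.exists_phi hl hP hlP
  have hφd : Stab P φ := Vale.Agent.P022D.W.phi_mem hl hP hφ
  have hov : Ov l P := ⟨hl, hP, hlP⟩
  let Λ : (TanG ρ T Q D × MI ρ P) →+ MI ρ P := AddMonoidHom.mk'
    (fun p => ⟨p.1.1.1 φ - (p.2.1 - mr ρ φ * p.2.1 * mr ρ φ⁻¹),
        (MI ρ P).sub_mem (coc_MI p.1.2.coc (p.1.2.unr l hT hQ P hov) hφd)
          ((MI ρ P).sub_mem p.2.2 (MI_conj hφd p.2.2))⟩)
    (fun p q => Subtype.ext (by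
        simp only [Prod.fst_add, Prod.snd_add, AddSubgroup.coe_add, Pi.add_apply, mul_add, add_mul]
        abel))
  have hm : ∀ p : Λ.ker, (p.1.1.1.1, p.1.1.1.2 + Pi.single l p.1.2.1) ∈
      TanS ρ (insert l T) Q D := by
    rintro ⟨⟨⟨⟨c, a⟩, hz⟩, X, hXI⟩, hp⟩
    have ht : TanR ρ T Q D c a := hz
    have hX : c φ = X - mr ρ φ * X * mr ρ φ⁻¹ := sub_eq_zero.1 (congrArg Subtype.val hp)
    change TanR ρ (insert l T) Q D c (a + Pi.single l X)
    refine ⟨ht.coc, ht.opn, fun l' h2 h3 =>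
      ht.unr l' (fun h => h2 (Finset.mem_insert_of_mem h)) h3, fun t htm g hg => ?_,
      fun t htm => ?_⟩
    · rcases Finset.mem_insert.1 htm with rfl | htT
      · rw [Pi.add_apply, Pi.single_eq_same, ht.zero t hT, zero_add]
        rw [hDl] at hg
        exact coc_dec hρ ht.coc ht.opn hl hP hlP (ht.unr t hT hQ P hov) hφ hXI hX hg
      · have hne : t ≠ l := fun e => hT (e ▸ htT)
        rw [Pi.add_apply, Pi.single_eq_of_ne hne, add_zero]
        exact ht.loc t htT g hg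
    · have hne : t ≠ l := fun e => htm (e ▸ Finset.mem_insert_self l T)
      rw [Pi.add_apply, Pi.single_eq_of_ne hne, add_zero]
      exact ht.zero t fun h => htm (Finset.mem_insert_of_mem h)
  let Θ : Λ.ker → TanS ρ (insert l T) Q D := fun p => ⟨_, hm p⟩
  have hΘ : Function.Injective Θ := by
    rintro ⟨⟨⟨⟨c, a⟩, hz⟩, X, hXI⟩, hp⟩ ⟨⟨⟨⟨c', a'⟩, hz'⟩, X', hXI'⟩, hp'⟩ e
    have e' := congrArg Subtype.val e
    have h1 : c = c' := congrArg Prod.fst e'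
    have h2 : a + Pi.single l X = a' + Pi.single l X' := congrArg Prod.snd e'
    have h3 : a l = 0 := TanR.zero hz l hT
    have h3' : a' l = 0 := TanR.zero hz' l hT
    have h4 : X = X' := by
      have := congrFun h2 l
      rwa [Pi.add_apply, Pi.add_apply, Pi.single_eq_same, Pi.single_eq_same, h3, h3', zero_add,
        zero_add] at this
    rw [h4] at h2
    have h5 := add_right_cancel h2
    subst h1 h4 h5
    rfl
  have hf : Finite (TanS ρ (insert l T) Q D) := h.to_subtype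
  have hk : Finite Λ.ker := Finite.of_injective Θ hΘ
  obtain ⟨k1, k2⟩ := cnt Λ
  exact ⟨Set.finite_coe_iff.1 k1,
    k2.trans (Nat.card_le_card_of_injective Θ hΘ)⟩

/-- **More framed places** -/
theorem enlr : ENLR := by
  classical
  intro R _ _ ρ T A Q D D' hρ hTA hA hDD h
  have key : ∀ B : Finset ℕ, B ⊆ A \ T → (TanS ρ (T ∪ B) Q D').Finite →
      (TanS ρ T Q D').Finite ∧ Nat.card (TanS ρ T Q D') ≤ Nat.card (TanS ρ (T ∪ B) Q D') := by
    intro B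
    induction B using Finset.induction_on with
    | empty => intro _ h; rw [Finset.union_empty] at h ⊢; exact ⟨h, le_rfl⟩
    | insert l B hlB ih =>
      intro hB h
      have hl := Finset.mem_sdiff.1 (hB (Finset.mem_insert_self l B))
      obtain ⟨h1, h2, h3⟩ := hA l hl.1 hl.2
      rw [Finset.union_insert] at h ⊢
      obtain ⟨k1, k2⟩ := enl hρ h1 (by simp [hl.2, hlB]) h2 h3 h
      obtain ⟨k3, k4⟩ := ih ((Finset.subset_insert l B).trans hB) k1
      exact ⟨k3, k4.trans k2⟩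
  have h1 := key (A \ T) subset_rfl (by rwa [Finset.union_sdiff_of_subset hTA])
  rw [Finset.union_sdiff_of_subset hTA] at h1
  have e : TanS ρ T Q D = TanS ρ T Q D' := by
    ext z
    exact ⟨fun ht => ⟨ht.coc, ht.opn, ht.unr, fun l hl g hg => ht.loc l hl g (hDD l hl ▸ hg),
      ht.zero⟩, fun ht => ⟨ht.coc, ht.opn, ht.unr,
        fun l hl g hg => ht.loc l hl g ((hDD l hl).symm ▸ hg), ht.zero⟩⟩
  rw [e]
  exact h1

end P022G.Sel.H9
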