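import Vale.Agent.P022G.Sel.Bas
import Vale.Agent.P022E.GW.Kill

/-!
# P022G, block Sel: regular elements kill the dual classes at a curve
-/

set_option linter.all false

noncomputable section

namespace P022G.Sel.KillH9

open NumberField
open Vale.Agent.P022
open Vale.Agent.P022D.Sel (M2 Ginf)
open Vale.Agent.P022E.GW (Op)
open Vale.Agent.P022G
open P022G.Sel.Bas

/-- additive maps which vanish on `Ginf` are determined by two values -/
theorem two : ∃ a b : GQ, ∀ (M : Type) [AddCommGroup M] (χ : GQ → M), (∀ x : M, 2 • x = 0) →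
    (∀ g h, χ (g * h) = χ g + χ h) → (∃ V : Subgroup GQ, IsOpen (V : Set GQ) ∧ ∀ g ∈ V, χ g = 0) →
    (∀ g ∈ Ginf, χ g = 0) → χ a = 0 → χ b = 0 → ∀ g, χ g = 0 := by
  obtain ⟨i, hi⟩ := IsAlgClosed.exists_pow_nat_eq (-1 : Qb) (n := 2) two_pos
  obtain ⟨r, hr⟩ := IsAlgClosed.exists_pow_nat_eq (2 : Qb) (n := 2) two_pos
  obtain ⟨a, b, h⟩ := Vale.Agent.P022E.GW.Kl.gens (F := ZMod 2) hi hr
  refine ⟨a, b, fun M _ χ h2 hχ ⟨V, hV, h1⟩ h3 ha hb g => ?_⟩
  letI : Module (ZMod 2) M := AddCommGroup.zmodModule h2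
  refine (Module.forall_dual_apply_eq_zero_iff (ZMod 2) _).1 fun l => ?_
  have k : ∀ g h, l (χ (g * h)) = l (χ g) + l (χ h) := fun g h => by rw [hχ, map_add]
  exact h (fun g => l (χ g)) k (fun g gi gr => Vale.Agent.P022E.GW.Kl.chr (F := ZMod 2)
    (χ := fun g => l (χ g)) k hV (fun g hg => by rw [h1 g hg, map_zero])
    (fun g hg => by rw [h3 g hg, map_zero]) hi hr gi gr) (by rw [ha, map_zero])
    (by rw [hb, map_zero]) g

/-- counting by fibres -/
theorem fib {X B : Type} [AddCommGroup X] [Finite B] (S K : X → Prop) [Finite {x // K x}]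
    (f : {x // S x} → B) (h : ∀ x y, f x = f y → K (x.1 - y.1)) :
    Nat.card {x // S x} ≤ Nat.card {x // K x} * Nat.card B := by
  classical
  have e : ∀ x : {x // S x}, ∃ y, f y = f x := fun x => ⟨x, rfl⟩
  let s : B → Option {x // S x} := fun b => if hb : ∃ y, f y = b then some hb.choose else none
  let F : {x // S x} → {x // K x} × B := fun x =>
    (⟨x.1 - (e x).choose.1, h _ _ (e x).choose_spec.symm⟩, f x)
  have hF : Function.Injective F := by
    intro x y hxy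
    have h1 : f x = f y := congrArg Prod.snd hxy
    have h2 : x.1 - (e x).choose.1 = y.1 - (e y).choose.1 :=
      congrArg (fun p => p.1.1) hxy
    have h3 : (e x).choose = (e y).choose := by
      have : (fun z => f z = f x) = fun z => f z = f y := by rw [h1]
      congr 1
    rw [h3] at h2
    exact Subtype.ext (sub_left_injective h2)
  rw [← Nat.card_prod]
  exact Nat.card_le_card_of_injective F hF

variable {R : Type} [CommRing R] {ρ : GQ →* GL (Fin 2) R}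

/-- the shape of a killed class -/
theorem shape {δ : R} (hs : Car.Sp (mh ρ) Ginf δ) {y : GQ → M2 R} (hy : Co ρ y)
    (ht : ∀ g ∈ Ginf, (y g * mr ρ g).trace = 0) : ∃ (M : M2 R) (c : GQ → R),
    (∀ g h, c (g * h) = c g + c h) ∧ (∀ g ∈ Ginf, c g = 0) ∧
      ∀ g, δ ^ 5 • y g = M - mr ρ g * M * mr ρ g⁻¹ + c g • (1 : M2 R) := by
  have := Vale.Agent.P022E.GW.Kl.nrm
  obtain ⟨M, c, h1, h2, h3⟩ := Car.car_normal (coc_of hy) hs 1 (fun g hg => by
    rw [one_mul]; exact ht g hg)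
  refine ⟨M, c, h1, h2, fun g => ?_⟩
  have e := congrArg (fun X => X * mr ρ g⁻¹) (h3 g)
  simp only [mh_apply, smul_mul_assoc, add_mul, sub_mul, mul_assoc, mi', mul_one] at e
  rw [e, mul_assoc]

theorem scal_eq {M M' : M2 R} (h0 : M 0 0 - M 1 1 = M' 0 0 - M' 1 1) (h1 : M 0 1 = M' 0 1)
    (h2 : M 1 0 = M' 1 0) : M = M' + (M 0 0 - M' 0 0) • (1 : M2 R) := by
  ext i j
  fin_cases i <;> fin_cases j <;> simp [h1, h2]
  linear_combination -h0

/-- **the dual classes** -/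
theorem killC (hF : FINR) : KILL := by
  intro A _ _ _ _ t ρ T D ht hf hN
  obtain ⟨δ, hδ, hs⟩ := hN.irr
  obtain ⟨e, u, rfl⟩ := IsDiscreteValuationRing.eq_unit_mul_pow_irreducible hδ ht
  obtain ⟨C, hC⟩ := tors hF ht.ne_zero hf (fun N => (hN.lv N).opn) T (e * 5)
  obtain ⟨a, b, hab⟩ := two
  obtain ⟨s, hs0, hs1, hs2⟩ := hN.reg
  refine ⟨C, fun N => ?_⟩
  have fN := fin_tI hf N
  have hfin : (H1R (rd (tI t N) ρ) T).Finite := hF _ _ _ (two_q _) (hN.lv N).opn
  have fK : Finite {y : GQ → M2 (A ⧸ tI t N) // y ∈ H1R (rd (tI t N) ρ) T ∧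
      Ideal.Quotient.mk (tI t N) (t ^ (e * 5)) • y = 0} :=
    (hfin.subset fun y (hy : _ ∧ _) => hy.1).to_subtype
  have hsh : ∀ y : {y : GQ → M2 (A ⧸ tI t N) // y ∈ H1R (rd (tI t N) ρ) T ∧
      ∀ σ ∈ Ginf, IsUnit (mr ρ σ).trace →
        (y σ).trace = 0 ∧ (y σ * mr (rd (tI t N) ρ) σ).trace = 0}, _ := fun y =>
    shape (sp_rd hs (tI t N) le_rfl) y.2.1.1 (fun g hg => by
      rcases hs2 g hg with h | ⟨h, k⟩
      · exact (y.2.2 g hg h).2
      · refine tr_step y.2.1.1 (s := s) ?_ (y.2.2 s hs0 hs1).1 (y.2.2 s hs0 hs1).2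
          (y.2.2 _ (Ginf.mul_mem hg hs0) h).2
          (y.2.2 _ (Ginf.mul_mem (Ginf.mul_mem hg hs0) hs0) k).2
        rw [mr_rd, ← RingHom.mapMatrix_apply, ← RingHom.map_det, hN.det, map_one])
  choose M c h1 h2 h3 using hsh
  have hz : ∀ y, ∃ V : Subgroup GQ, IsOpen (V : Set GQ) ∧ ∀ g ∈ V, c y g = 0 := by
    intro y
    obtain ⟨U, hU, h0⟩ := y.2.1.2.1
    refine ⟨U ⊓ (rd (tI t N) ρ).ker, hU.inter (hN.lv N).opn, fun g hg => ?_⟩
    have := h3 y g
    rw [h0 g hg.1, smul_zero, (mker hg.2).1, (mker hg.2).2, one_mul, mul_one, sub_self,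
      zero_add] at this
    simpa using (congrFun (congrFun this 0) 0).symm
  refine (fib _ (fun y => y ∈ H1R (rd (tI t N) ρ) T ∧
      Ideal.Quotient.mk (tI t N) (t ^ (e * 5)) • y = 0) (B := Fin 5 → A ⧸ tI t N)
    (fun y => ![M y 0 0 - M y 1 1, M y 0 1, M y 1 0, c y a, c y b]) ?_).trans ?_
  · intro x y hxy
    refine ⟨h1_sub x.2.1 y.2.1, ?_⟩
    have e0 := scal_eq (congrFun hxy 0) (congrFun hxy 1) (congrFun hxy 2)
    have e1 : ∀ g, c x g - c y g = 0 := by
      obtain ⟨V, hV, v⟩ := hz x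
      obtain ⟨W, hW, w⟩ := hz y
      refine hab _ (fun g => c x g - c y g) (fun z => by rw [nsmul_eq_mul, Nat.cast_ofNat, two_q,
        zero_mul]) (fun g h => by rw [h1, h1]; ring)
        ⟨V ⊓ W, hV.inter hW, fun g hg => by rw [v g hg.1, w g hg.2, sub_zero]⟩
        (fun g hg => by rw [h2 x g hg, h2 y g hg, sub_zero])
        (sub_eq_zero.2 (congrFun hxy 3)) (sub_eq_zero.2 (congrFun hxy 4))
    have e2 : ∀ g, Ideal.Quotient.mk (tI t N) (u * t ^ e) ^ 5 • (x.1 g - y.1 g) = 0 := by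
      intro g
      rw [smul_sub, h3, h3, sub_eq_zero.1 (e1 g), e0]
      simp only [mul_add, add_mul, mul_smul_comm, smul_mul_assoc, mul_one, mi']
      abel
    funext g
    have e3 : Ideal.Quotient.mk (tI t N) (t ^ (e * 5)) = Ideal.Quotient.mk (tI t N) ((u⁻¹ : Aˣ) ^ 5)
        * Ideal.Quotient.mk (tI t N) (u * t ^ e) ^ 5 := by
      rw [← map_pow, ← map_mul, ← mul_pow, Units.inv_mul_cancel_left, pow_mul]
    rw [Pi.smul_apply, Pi.sub_apply, e3, mul_smul, e2, smul_zero, Pi.zero_apply]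
  · rw [Nat.card_fun, Nat.card_eq_fintype_card (α := Fin 5), Fintype.card_fin]
    exact Nat.mul_le_mul_right _ (hC N)

end P022G.Sel.KillH9
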