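import Vale.Agent.P022G.RecR
import Vale.Agent.P022G.Sel.Defs

/-!
# P022G, block Sel: the row `RECR`
-/

set_option linter.all false

noncomputable section

namespace P022G.Sel

open NumberField
open Vale.Agent.P022
open Vale.Agent.P027M.S (Inert)
open Vale.Agent.P022D.Sel (M2 IsDec Ginf)
open Vale.Agent.P022E.GW (Ov Fb Gn Op Ur)

theorem recrC : RECR := by
  intro R _ _ ρ T Q D P τ φ c y a h2 lv hQ hc hy
  have e1 : {g : GQ | ((Units.coeHom (M2 R)).comp ρ) g = 1} = {g : GQ | ρ g = 1} := by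
    ext g
    exact Units.val_eq_one
  refine Vale.Agent.P022G.RecR.rec2 h2 ((Units.coeHom (M2 R)).comp ρ) T Q D P τ φ c y a
    (e1 ▸ lv.opn) lv.h0 lv.h2 lv.dec (fun l hl P hP g hg => ?_) hQ hc.coc hc.opn
    (fun l hl P hP g hg => ?_) hc.loc hy.1 hy.2.1 hy.2.2
  · exact Units.val_eq_one.2 (lv.unr l hl P hP g hg)
  · rw [Finset.mem_union, not_or] at hl
    exact hc.unr l hl.1 hl.2 P hP g hg

end P022G.Sel
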