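import Vale.Agent.P022G.Sel.Sha
import Vale.Agent.P022G.Sel.Dual
import Vale.Agent.P022G.Sel.Recr
import Vale.Agent.P022G.Sel.Finr
import Vale.Agent.P022G.Sel.Auxr
import Vale.Agent.P022G.Sel.TauR
import Vale.Agent.P022G.Sel.EnlR
import Vale.Agent.P022G.Sel.KillH9

/-!
# P022G, block Sel: the tangent space bound at a curve from the lower bound
-/

set_option linter.all false

noncomputable section

namespace P022G.Sel

open NumberField
open Vale.Agent.P022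
open Vale.Agent.P027M.S (Inert)
open Vale.Agent.P022D.Sel (M2 IsDec Ginf Stab)
open Vale.Agent.P022E.GW (Ov Fb Gn Op Ur)
open Vale.Agent.P022G
open P022G.Sel.Bas P022G.Sel.Sh

section
variable {R : Type} [CommRing R]

/-- the conclusion of the lower bound -/
def LBc (t : R) (ρ : GQ →* GL (Fin 2) R) (T : Finset ℕ) (D : ℕ → Set GQ) : Prop :=
  ∃ (T₀ : Finset ℕ) (D₀ : ℕ → Set GQ), T ⊆ T₀ ∧ (∀ l ∈ T, D₀ l = D l) ∧
    (∀ l ∈ T₀, IsDec l (D₀ l)) ∧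
    ∀ (T₁ : Finset ℕ) (D₁ : ℕ → Set GQ), T₀ ⊆ T₁ → (∀ l ∈ T₀, D₁ l = D₀ l) →
      (∀ l ∈ T₁, IsDec l (D₁ l)) → ∃ C : ℕ, ∀ N : ℕ,
        Nat.card (FxR (rd (tI t N) ρ) T₁ D₁) * Nat.card (R ⧸ tI t N) ^ 3 ≤
          C * Nat.card (H1R (rd (tI t N) ρ) T₁)

/-- the conclusion of the tangent space bound -/
def SELc (t : R) (ρ : GQ →* GL (Fin 2) R) (T : Finset ℕ) (D : ℕ → Set GQ) : Prop :=
  ∃ (T₁ : Finset ℕ) (C : ℕ), T ⊆ T₁ ∧ ∀ N : ℕ, ∃ (r : ℕ) (σ : Fin r → GQ) (U : Subgroup GQ),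
    IsOpen (U : Set GQ) ∧ U.Normal ∧ (∀ g ∈ U, rd (tI t N) ρ g = 1) ∧
    (∀ i, σ i ∈ Ginf ∧ IsUnit (mr ρ (σ i)).trace) ∧
    ∀ q : Fin r → ℕ, Function.Injective q → (∀ i, AuxR ρ U T₁ (σ i) (q i)) →
      (TanS (rd (tI t N) ρ) T (Finset.univ.image q) D).Finite ∧
      Nat.card (TanS (rd (tI t N) ρ) T (Finset.univ.image q) D) ≤
        C * Nat.card (R ⧸ tI t N) ^ (2 * r + 5)

theorem Nice.mono {t : R} {ρ : GQ →* GL (Fin 2) R} {T T₁ : Finset ℕ} {D D₁ : ℕ → Set GQ}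
    (h : Nice t ρ T D) (hT : T ⊆ T₁) (hD : ∀ l ∈ T₁, IsDec l (D₁ l)) : Nice t ρ T₁ D₁ :=
  ⟨fun N => ⟨(h.lv N).opn, hT (h.lv N).h0, hT (h.lv N).h2, hD,
    fun l hl => (h.lv N).unr l fun k => hl (hT k)⟩, h.det, h.irr, h.reg⟩

/-- the tangent vectors as a submodule -/
def TanM (ρ : GQ →* GL (Fin 2) R) (T Q : Finset ℕ) (D : ℕ → Set GQ) :
    Submodule R ((GQ → M2 R) × (ℕ → M2 R)) where
  carrier := TanS ρ T Q D
  add_mem' hx hy := (H9.TanG (ρ := ρ) T Q D).add_mem hx hy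
  zero_mem' := (H9.TanG (ρ := ρ) T Q D).zero_mem
  smul_mem' r x hx := ⟨fun g h => by
      simp only [Prod.smul_fst, Pi.smul_apply]
      rw [hx.coc g h, smul_add, mul_smul_comm, smul_mul_assoc],
    hx.opn.imp fun U hU => ⟨hU.1, fun σ hσ => by
      simp only [Prod.smul_fst, Pi.smul_apply]
      rw [hU.2 σ hσ, smul_zero]⟩,
    fun l h1 h2 P hP g hg => by
      simp only [Prod.smul_fst, Pi.smul_apply]
      rw [hx.unr l h1 h2 P hP g hg, smul_zero],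
    fun l hl g hg => by
      simp only [Prod.smul_fst, Prod.smul_snd, Pi.smul_apply]
      rw [hx.loc l hl g hg, smul_sub, mul_smul_comm, smul_mul_assoc],
    fun l hl => by
      simp only [Prod.smul_snd, Pi.smul_apply]
      rw [hx.zero l hl, smul_zero]⟩

theorem of_pow (h2 : (2 : R) = 0) {ρ : GQ →* GL (Fin 2) R} {y : GQ → M2 R} (hy : Co ρ y) {σ : GQ}
    (hd : (mr ρ σ).det = 1) {m : ℕ} (hm : Odd m) (hu : IsUnit (mr ρ (σ ^ m)).trace)
    (h1 : (y (σ ^ m)).trace = 0) (h3 : (mr ρ (σ ^ m) * y (σ ^ m)).trace = 0) :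
    (y σ).trace = 0 ∧ (y σ * mr ρ σ).trace = 0 := by
  have e : mr ρ (σ ^ m) = mr ρ σ ^ m := by simp only [mr, map_pow, Units.val_pow_eq_pow_val]
  have a := trpow hy (σ := σ) (C := 1) (by rw [mul_one, one_mul]) m
  rw [one_mul, one_mul, h1, odd_cast h2 hm, one_mul] at a
  have b := trpow hy (σ := σ) (C := mr ρ (σ ^ m)) (by rw [← mm, ← mm, ← pow_succ', ← pow_succ]) m
  rw [h3, odd_cast h2 hm, one_mul] at b
  obtain ⟨n, rfl⟩ := hm
  obtain ⟨u, w, hw⟩ := pw h2 (mr ρ σ) hd n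
  rw [e, hw] at hu b
  rw [Matrix.trace_add, Matrix.trace_smul, Matrix.trace_smul, Matrix.trace_one, Fintype.card_fin,
    Nat.cast_ofNat, h2, smul_zero, zero_add, smul_eq_mul] at hu
  rw [add_mul, smul_mul_assoc, smul_mul_assoc, one_mul, Matrix.trace_add, Matrix.trace_smul,
    Matrix.trace_smul, ← a, smul_zero, zero_add, smul_eq_mul] at b
  refine ⟨a.symm, ?_⟩
  rw [Matrix.trace_mul_comm]
  exact ((isUnit_of_mul_isUnit_left hu).mul_right_eq_zero).1 b.symm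

end

/-- **the tangent space bound** -/
theorem sel_at {A : Type} [CommRing A] [IsDomain A] [IsDiscreteValuationRing A]
    [CharP A 2] {t : A} {ρ : GQ →* GL (Fin 2) A} {T : Finset ℕ} {D : ℕ → Set GQ}
    (ht : Irreducible t) (hf : Finite (A ⧸ tI t 1)) (hN : Nice t ρ T D) (hL : LBc t ρ T D) :
    SELc t ρ T D := by
  classical
  obtain ⟨T₀, D₀, a1, a2, a3, a4⟩ := hL
  obtain ⟨T₁, D₁, C3, b1, b2, b3, b4⟩ :=
    shaC_of finrC auxrC A t ρ T₀ D₀ ht hf (hN.mono a1 a3)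
  obtain ⟨C2, c2⟩ := a4 T₁ D₁ b1 b2 b3
  have hN1 := hN.mono (a1.trans b1) b3
  obtain ⟨C1, c1⟩ := KillH9.killC finrC A t ρ T₁ D₁ ht hf hN1
  refine ⟨T₁, C1 * C2 * C3 + 1, a1.trans b1, fun N => ?_⟩
  haveI := fin_tI hf N
  rcases Nat.eq_zero_or_pos N with rfl | Npos
  · haveI : Subsingleton (A ⧸ tI t 0) := Ideal.Quotient.subsingleton_iff.2 (by simp [tI])
    refine ⟨0, Fin.elim0, ⊤, isOpen_univ, inferInstance,
      fun g _ => Units.ext (Subsingleton.elim _ _), fun i => i.elim0, fun q _ _ =>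
        ⟨Set.toFinite _, ?_⟩⟩
    refine (Finite.card_le_one_iff_subsingleton.2 inferInstance).trans ?_
    exact Nat.succ_le_of_lt (mul_pos (Nat.succ_pos _) (pow_pos Nat.card_pos _))
  set ρN := rd (tI t N) ρ with hρN
  have h2 : (2 : A ⧸ tI t N) = 0 := two_q _
  have lv := hN1.lv N
  have fin := finrC _ ρN T₁ h2 lv.opn
  haveI := fin.to_subtype
  let B := {y : H1R ρN T₁ // ∃ σ ∈ Ginf, IsUnit (mr ρ σ).trace ∧
    ¬ ((y.1 σ).trace = 0 ∧ (y.1 σ * mr ρN σ).trace = 0)}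
  choose s hs1 hs2 hs3 using fun y : B => y.2
  let eB := (Finite.equivFin B).symm
  choose V hV hV0 using fun y : H1R ρN T₁ => y.2.2.1
  have ho : IsOpen ((ρN.ker ⊓ ⨅ y, V y : Subgroup GQ) : Set GQ) := by
    rw [Subgroup.coe_inf, Subgroup.coe_iInf]
    exact lv.opn.inter (isOpen_iInter_of_finite hV)
  have hle := Subgroup.normalCore_le (ρN.ker ⊓ ⨅ y, V y)
  refine ⟨Nat.card B, fun i => s (eB i), (ρN.ker ⊓ ⨅ y, V y).normalCore,
    Vale.Agent.P022D.Sel.opn_core _ ho, inferInstance, fun g hg => (hle hg).1,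
    fun i => ⟨hs1 _, hs2 _⟩, fun q hq hx => ?_⟩
  have hqp : ∀ i, (q i).Prime := fun i => (hx i).1
  have hqA : ∀ i, q i ∉ T₁ := fun i => (hx i).2.1
  have hq2 : ∀ i, q i ≠ 2 := fun i e => hqA i (e ▸ lv.h2)
  choose φ m hφ hm hφU hφS using fun i => (hx i).2.2
  choose P hP hqP hfr using hφ
  have ov : ∀ i, Ov (q i) (P i) := fun i => ⟨hqp i, hP i, hqP i⟩
  choose τ hτ using fun i => Vale.Agent.P022E.GW.Tg.ex_gn (ov i) (hq2 i)
  have em : ∀ i, mr ρN (φ i) = mr ρN (s (eB i) ^ m i) := fun i => by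
    have h1 : ρN ((φ i)⁻¹ * s (eB i) ^ m i) = 1 := (hle (hφU i)).1
    rw [map_mul, map_inv, inv_mul_eq_one] at h1
    exact congrArg Units.val h1
  have ey : ∀ y ∈ H1R ρN T₁, ∀ i, y (φ i) = y (s (eB i) ^ m i) := fun y hy i => by
    have h1 := hy.1 (φ i) ((φ i)⁻¹ * s (eB i) ^ m i)
    have h0 : y ((φ i)⁻¹ * s (eB i) ^ m i) = 0 :=
      hV0 ⟨y, hy⟩ _ (Subgroup.mem_iInf.1 (hle (hφU i)).2 _)
    rw [mul_inv_cancel_left, h0, mul_zero, zero_mul, add_zero] at h1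
    exact h1.symm
  have hu : ∀ i, IsUnit (mr ρN (φ i)).trace := fun i => by
    rw [hρN, mr_rd, tr_map]
    exact (hφS i).map _
  set Q := Finset.univ.image q with hQ
  have tau := fun z (hz : z ∈ TanS ρN T₁ Q D₁) i => H9.taur _ ρN (q i) (P i) (φ i) (τ i) z.1 h2
    (ov i) (hq2 i) (hfr i) (hτ i) (lv.unr _ (hqA i) _ (ov i)) hz.coc hz.opn
  let f : TanM ρN T₁ Q D₁ →ₗ[A ⧸ tI t N] (Fin (Nat.card B) → M2 (A ⧸ tI t N)) :=
    { toFun := fun z i => z.1.1 (τ i)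
      map_add' := fun _ _ => rfl
      map_smul' := fun _ _ => rfl }
  let g : H1M ρN T₁ →ₗ[A ⧸ tI t N] (Fin (Nat.card B) → M2 (A ⧸ tI t N)) :=
    { toFun := fun y i => y.1 (φ i)
      map_add' := fun _ _ => rfl
      map_smul' := fun _ _ => rfl }
  have d := Vale.Agent.P022G.Sel.H44.dualM h2 (Vale.Agent.P022G.Sel.H44.soc_quot ht Npos)
    (fun i => mr ρN (φ i)) hu f g
    (fun z i => by
      change z.1.1 (τ i) * _ = _ * z.1.1 (τ i)
      conv_lhs => rw [← (tau z.1 z.2 i).1]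
      rw [mul_assoc, mi, mul_one])
    (fun z y => by
      have h3 := recrC _ ρN T₁ Q D₁ (Function.extend q P fun _ => ⊤) (Function.extend q τ 1)
        (Function.extend q φ 1) z.1.1 y.1 z.1.2 h2 lv (fun l hl => by
          obtain ⟨i, -, rfl⟩ := Finset.mem_image.1 hl
          rw [hq.extend_apply, hq.extend_apply, hq.extend_apply]
          exact ⟨hqA i, ov i, hτ i, hfr i, hu i⟩) z.2 y.2
      have h4 := (Finset.sum_image (s := Finset.univ) (g := q) fun _ _ _ _ h => hq h).symm.trans h3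
      simp only [hq.extend_apply] at h4
      exact h4)
  have finT : ∀ Q', (TanS ρN T₁ Q' D₁).Finite := fun Q' =>
    (tan_le _ (finrC _ ρN (T₁ ∪ Q') h2 lv.opn) fun c a h => ⟨h.coc, h.opn, fun l hl =>
      h.unr l (fun k => hl (Finset.mem_union_left _ k))
        (fun k => hl (Finset.mem_union_right _ k))⟩).1
  have k1 : Nat.card {x : TanM ρN T₁ Q D₁ // f x = 0} ≤ Nat.card (TanS ρN T₁ ∅ D₁) := by
    haveI := (finT ∅).to_subtype
    refine Nat.card_le_card_of_injective (fun x => ⟨x.1.1, x.1.2.coc, x.1.2.opn,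
      fun l h1 _ P' hP' g' hg' => ?_, x.1.2.loc, x.1.2.zero⟩)
      fun a b e => Subtype.ext (Subtype.ext (Subtype.mk.inj e))
    by_cases hlQ : l ∈ Q
    · obtain ⟨i, -, rfl⟩ := Finset.mem_image.1 hlQ
      exact (tau x.1.1 x.1.2 i).2 (congrFun x.2 i) P' hP' g' hg'
    · exact x.1.2.unr l h1 hlQ P' hP' g' hg'
  have k2 : Nat.card {y : H1M ρN T₁ // ∀ i, (g y i).trace = 0 ∧ (mr ρN (φ i) * g y i).trace = 0} ≤
      C1 * Nat.card (A ⧸ tI t N) ^ 5 := by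
    refine le_trans ?_ (c1 N)
    haveI : Finite {y : GQ → M2 (A ⧸ tI t N) // y ∈ H1R ρN T₁ ∧
      ∀ σ ∈ Ginf, IsUnit (mr ρ σ).trace →
        (y σ).trace = 0 ∧ (y σ * mr ρN σ).trace = 0} :=
      (fin.subset fun y hy => hy.1 : Set.Finite {y | y ∈ H1R ρN T₁ ∧ ∀ σ ∈ Ginf,
        IsUnit (mr ρ σ).trace → (y σ).trace = 0 ∧ (y σ * mr ρN σ).trace = 0}).to_subtype
    refine Nat.card_le_card_of_injective (fun y => ⟨y.1.1, y.1.2, fun σ h1 h3 => ?_⟩)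
      fun a b e => Subtype.ext (Subtype.ext (Subtype.mk.inj e))
    by_contra h4
    let b : B := ⟨⟨y.1.1, y.1.2⟩, σ, h1, h3, h4⟩
    obtain ⟨i, hi⟩ := eB.surjective b
    have h5 := y.2 i
    change (y.1.1 (φ i)).trace = 0 ∧ (mr ρN (φ i) * y.1.1 (φ i)).trace = 0 at h5
    have h6 := hu i
    rw [em] at h6
    rw [ey _ y.1.2, em] at h5
    have h7 := of_pow h2 y.1.2.1 (by
      rw [hρN, mr_rd, ← RingHom.mapMatrix_apply, ← RingHom.map_det, hN.det, map_one])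
      (hm i) h6 h5.1 h5.2
    rw [hi] at h7
    exact hs3 b h7
  have pos : 0 < Nat.card (H1R ρN T₁) := by
    haveI : Nonempty (H1R ρN T₁) := ⟨⟨0, (H1M ρN T₁).zero_mem⟩⟩
    exact Nat.card_pos
  have main : Nat.card (TanS ρN T₁ Q D₁) ≤
      C1 * C2 * C3 * Nat.card (A ⧸ tI t N) ^ (2 * Nat.card B + 5) := by
    refine Nat.le_of_mul_le_mul_right ?_ pos
    rw [Fintype.card_fin] at d
    refine le_trans d ?_
    calc _ ≤ Nat.card (A ⧸ tI t N) ^ (2 * Nat.card B) *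
          (C3 * (C2 * Nat.card (H1R ρN T₁)) * (C1 * Nat.card (A ⧸ tI t N) ^ 5)) :=
          Nat.mul_le_mul_left _ (Nat.mul_le_mul
            (k1.trans ((b4 N).trans (Nat.mul_le_mul_left _ (c2 N)))) k2)
      _ = _ := by ring
  obtain ⟨e1, e2⟩ := H9.enlr _ ρN T T₁ Q D D₁ lv.opn (a1.trans b1) (fun l hl hl' =>
    ⟨((b3 l hl).resolve_left fun h => hl' (h.1 ▸ (hN.lv 0).h0)).1, fun hlQ => by
      obtain ⟨i, -, rfl⟩ := Finset.mem_image.1 hlQ
      exact hqA i hl, b3 l hl⟩) (fun l hl => (b2 l (a1 hl)).trans (a2 l hl)) (finT Q)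
  exact ⟨e1, (e2.trans main).trans (Nat.mul_le_mul_right _ (Nat.le_succ _))⟩

theorem selaC_of (hL : LBA) : SELA := fun A _ _ _ _ t ρ T D ht hf hN =>
  sel_at ht hf hN (hL A t ρ T D ht hf hN)

end P022G.Sel
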