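import Vale.Agent.P022G.Sel.Defs
import Vale.Agent.P022E.Sel.AuxQ

/-! P022G, block Sel: a prime whose Frobenius element has a small trace. -/

set_option linter.all false

noncomputable section

namespace P022G.Sel.St0

open NumberField Vale.Agent.P022
open Vale.Agent.P022D.Sel (M2 Ginf)
open Vale.Agent.P022E.GW (Ov Fb)

variable {A : Type} [CommRing A]

/-- the trace is smaller than the non scalar part -/
def ST (t : A) (X : M2 A) (e : ℕ) : Prop :=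
  ∃ y z w : A, X 0 1 = t ^ e * y ∧ X 1 0 = t ^ e * z ∧ X 0 0 - X 1 1 = t ^ (e + 1) * w ∧
    (IsUnit y ∨ IsUnit z)

theorem ST.br [CharP A 2] {t : A} {X : M2 A} {e : ℕ} (h : ST t X e) (c : A) :
    ∃ Y Z : M2 A, X * Y - Y * X = (t ^ e * c) • X + t ^ (e + 1) • Z := by
  obtain ⟨y, z, w, h1, h2, h3, hu⟩ := h
  have t2 : (2 : A) = 0 := CharTwo.two_eq_zero
  rcases hu with hu | hu
  · obtain ⟨y', hy⟩ := hu.exists_right_inv
    refine ⟨!![c * t ^ e, 0; c * X 0 0 * y', 0], !![0, 0; c * X 0 0 * y' * w, c * t ^ e * w], ?_⟩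
    ext i j
    fin_cases i <;> fin_cases j <;>
      simp [Matrix.mul_apply, Matrix.vecMul, dotProduct, Fin.sum_univ_two, h1, h2]
    · linear_combination (t ^ e * c * X 0 0) * hy
    · linear_combination (-(c * t ^ e * t ^ e * y)) * t2
    · linear_combination (-(c * X 0 0 * y')) * h3 - (c * X 0 0 * y' * w * t ^ (e + 1)) * t2
    · linear_combination (-(t ^ e * c * X 0 0)) * hy + (c * t ^ e) * h3 -
        (t ^ e * c * X 0 0) * t2
  · obtain ⟨z', hz⟩ := hu.exists_right_inv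
    refine ⟨!![c * t ^ e, c * X 0 0 * z'; 0, 0], !![0, c * X 0 0 * z' * w; 0, c * t ^ e * w], ?_⟩
    ext i j
    fin_cases i <;> fin_cases j <;>
      simp [Matrix.mul_apply, Matrix.vecMul, dotProduct, Fin.sum_univ_two, h1, h2]
    · linear_combination (-(t ^ e * c * X 0 0)) * hz - (t ^ e * c * X 0 0) * t2
    · linear_combination (c * X 0 0 * z') * h3 - (c * t ^ e * t ^ e * y) * t2
    · ring
    · linear_combination (t ^ e * c * X 0 0) * hz + (c * t ^ e) * h3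

theorem ch (X : M2 A) : X * X = X.trace • X - X.det • (1 : M2 A) := by
  ext i k
  fin_cases i <;> fin_cases k <;>
    simp [Matrix.mul_apply, Fin.sum_univ_two, Matrix.trace_fin_two, Matrix.det_fin_two] <;> ring

theorem mr_mul (ρ : GQ →* GL (Fin 2) A) (g h : GQ) : mr ρ (g * h) = mr ρ g * mr ρ h := by
  simp only [mr, map_mul, Units.val_mul]

theorem mr_pow (ρ : GQ →* GL (Fin 2) A) (g : GQ) (n : ℕ) : mr ρ (g ^ n) = mr ρ g ^ n := by
  simp only [mr, map_pow, Units.val_pow_eq_pow_val]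

theorem mr_inv (ρ : GQ →* GL (Fin 2) A) (g : GQ) : mr ρ g * mr ρ g⁻¹ = 1 := by
  rw [← mr_mul, mul_inv_cancel]; simp [mr]

theorem mr_inv' (ρ : GQ →* GL (Fin 2) A) (g : GQ) : mr ρ g⁻¹ * mr ρ g = 1 := by
  rw [← mr_mul, inv_mul_cancel]; simp [mr]

theorem rd_map (J : Ideal A) (ρ : GQ →* GL (Fin 2) A) (g : GQ) :
    mr (rd J ρ) g = (Ideal.Quotient.mk J).mapMatrix (mr ρ g) := rfl

/-- the scalars of the bottom layer die in the coinvariants -/
theorem kill [CharP A 2] {t : A} (ρ : GQ →* GL (Fin 2) A) {φ : GQ} {e N : ℕ}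
    (h : ST t (mr ρ φ) e) (hN : e < N) (c : A) : ∃ Y : M2 (A ⧸ tI t N),
    mr (rd (tI t N) ρ) φ * Y * mr (rd (tI t N) ρ) φ⁻¹ - Y =
      Ideal.Quotient.mk (tI t N) (t ^ (N - 1) * c) • (1 : M2 (A ⧸ tI t N)) := by
  obtain ⟨Y, Z, hY⟩ := h.br c
  obtain ⟨k, rfl⟩ : ∃ k, N = e + 1 + k := ⟨N - (e + 1), by omega⟩
  have e1 : mr ρ φ * (t ^ k • Y) * mr ρ φ⁻¹ - t ^ k • Y =
      (t ^ (e + 1 + k - 1) * c) • (1 : M2 A) + t ^ (e + 1 + k) • (Z * mr ρ φ⁻¹) := by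
    have : t ^ k • Y = t ^ k • (Y * mr ρ φ * mr ρ φ⁻¹) := by rw [mul_assoc, mr_inv, mul_one]
    rw [Matrix.mul_smul, Matrix.smul_mul, this, ← smul_sub, ← sub_mul, hY, add_mul,
      Matrix.smul_mul, Matrix.smul_mul, mr_inv, smul_add, smul_smul, smul_smul,
      show e + 1 + k - 1 = k + e by omega, pow_add t k, mul_assoc, ← pow_add, add_comm k (e + 1)]
  refine ⟨(Ideal.Quotient.mk (tI t (e + 1 + k))).mapMatrix (t ^ k • Y), ?_⟩
  rw [rd_map, rd_map, ← map_mul, ← map_mul, ← map_sub, e1]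
  ext i j
  have z0 : Ideal.Quotient.mk (tI t (e + 1 + k)) (t ^ (e + 1 + k)) = 0 :=
    Ideal.Quotient.eq_zero_iff_mem.2 (Ideal.mem_span_singleton_self _)
  simp only [RingHom.mapMatrix_apply, Matrix.map_apply, Matrix.add_apply, Matrix.smul_apply,
    smul_eq_mul, map_add, map_mul, z0, zero_mul, add_zero, Matrix.one_apply]
  split_ifs <;> simp

variable [IsDomain A] [IsDiscreteValuationRing A] [CharP A 2] {t : A}

theorem uadd (ht : Irreducible t) {u : A} (hu : IsUnit u) (r : A) : IsUnit (u + t * r) := by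
  by_contra h
  have h1 : u + t * r ∈ IsLocalRing.maximalIdeal A := h
  have h2 : t * r ∈ IsLocalRing.maximalIdeal A := Ideal.mul_mem_right _ _ ht.not_isUnit
  have := Ideal.sub_mem _ h1 h2
  rw [add_sub_cancel_right] at this
  exact this hu

theorem tdvd (ht : Irreducible t) {x : A} (h : ¬ IsUnit x) : t ∣ x := by
  rw [← Ideal.mem_span_singleton, ← ht.maximalIdeal_eq]; exact h

theorem of_val (ht : Irreducible t) {b c : A} (h : b ≠ 0 ∨ c ≠ 0) :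
    ∃ (e : ℕ) (y z : A), b = t ^ e * y ∧ c = t ^ e * z ∧ (IsUnit y ∨ IsUnit z) := by
  rcases ValuationRing.dvd_total b c with ⟨k, hk⟩ | ⟨k, hk⟩
  · have b0 : b ≠ 0 := fun e => by rcases h with h | h <;> simp_all
    obtain ⟨e, u, hu⟩ := IsDiscreteValuationRing.eq_unit_mul_pow_irreducible b0 ht
    exact ⟨e, u, u * k, by rw [hu]; ring, by rw [hk, hu]; ring, Or.inl u.isUnit⟩
  · have c0 : c ≠ 0 := fun e => by rcases h with h | h <;> simp_all
    obtain ⟨e, u, hu⟩ := IsDiscreteValuationRing.eq_unit_mul_pow_irreducible c0 ht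
    exact ⟨e, u * k, u, by rw [hk, hu]; ring, by rw [hu]; ring, Or.inr u.isUnit⟩

theorem diag_eq {X : M2 A} (h : X.trace = 0) : X 0 0 - X 1 1 = 0 := by
  rw [Matrix.trace_fin_two] at h
  linear_combination h - X 1 1 * (CharTwo.two_eq_zero : (2 : A) = 0)

theorem st_tr0 (ht : Irreducible t) {X : M2 A} (h0 : X.trace = 0) (h : X 0 1 ≠ 0 ∨ X 1 0 ≠ 0) :
    ∃ e, ST t X e := by
  obtain ⟨e, y, z, h1, h2, hu⟩ := of_val ht h
  exact ⟨e, y, z, 0, h1, h2, by rw [diag_eq h0, mul_zero], hu⟩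

theorem ST.lin (ht : Irreducible t) {X : M2 A} {e : ℕ} (h : ST t X e) (a : A) {b : A}
    (hb : IsUnit b) (Z : M2 A) : ST t (a • (1 : M2 A) + b • X + t ^ (e + 1) • Z) e := by
  obtain ⟨y, z, w, h1, h2, h3, hu⟩ := h
  refine ⟨b * y + t * Z 0 1, b * z + t * Z 1 0, b * w + (Z 0 0 - Z 1 1), ?_, ?_, ?_,
    hu.imp (fun h => uadd ht (hb.mul h) _) fun h => uadd ht (hb.mul h) _⟩
  · simp [h1]; ring
  · simp [h2]; ring
  · simp; linear_combination b * h3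

theorem ST.odd (ht : Irreducible t) {X : M2 A} {e : ℕ} (h : ST t X e) (hd : X.det = 1) {m : ℕ}
    (hm : Odd m) : ST t (X ^ m) e := by
  obtain ⟨j, rfl⟩ := hm
  obtain ⟨s, hs⟩ : t ∣ X.trace := by
    obtain ⟨y, z, w, -, -, h3, -⟩ := h
    refine ⟨t ^ e * w, ?_⟩
    rw [Matrix.trace_fin_two]
    linear_combination h3 + X 1 1 * (CharTwo.two_eq_zero : (2 : A) = 0)
  have c := ch X
  rw [hd, hs] at c
  have key : ∃ a b : A, IsUnit b ∧ X ^ (2 * j + 1) = a • (1 : M2 A) + b • X := by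
    induction j with
    | zero => exact ⟨0, 1, isUnit_one, by simp⟩
    | succ j ih =>
      obtain ⟨a, b, hb, e⟩ := ih
      refine ⟨-a - b * (t * s), -b + t * (s * (a + b * (t * s))), uadd ht hb.neg _, ?_⟩
      rw [show 2 * (j + 1) + 1 = 2 * j + 1 + 1 + 1 by ring, pow_succ, pow_succ, e]
      simp only [add_mul, sub_mul, Matrix.smul_mul, one_mul, c]
      module
  obtain ⟨a, b, hb, e1⟩ := key
  have := h.lin ht a hb 0
  rwa [smul_zero, add_zero, ← e1] at this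

theorem pow2 (ht : Irreducible t) {X : M2 A} (hd : X.det = 1) (h0 : X.trace ≠ 0)
    (h1 : t ∣ X.trace) (n : ℕ) : ∃ a b : A, IsUnit a ∧ b ≠ 0 ∧ t ^ (n + 1) ∣ b ∧
      X ^ 2 ^ (n + 1) = a • (1 : M2 A) + b • X := by
  have c := ch X
  rw [hd] at c
  induction n with
  | zero =>
    refine ⟨-1, X.trace, isUnit_one.neg, h0, by simpa using h1, ?_⟩
    rw [zero_add, pow_one, pow_two, c]; module
  | succ n ih =>
    obtain ⟨a, b, ha, hb, ⟨k, hk⟩, e⟩ := ih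
    refine ⟨a * a + t * (-(t ^ n * k * b)), b * b * X.trace, uadd ht (ha.mul ha) _,
      mul_ne_zero (mul_ne_zero hb hb) h0, ?_, ?_⟩
    · rw [pow_succ]
      exact mul_dvd_mul (Dvd.dvd.mul_right ⟨k, hk⟩ _) h1
    · have e2 : t * (-(t ^ n * k * b)) = -(b * b) := by rw [hk]; ring
      have t2 : (a * b + a * b) • X = 0 := by rw [CharTwo.add_self_eq_zero, zero_smul]
      rw [pow_succ 2, pow_mul, pow_two, e, e2, ← sub_eq_zero, ← t2]
      simp only [add_mul, mul_add, Matrix.smul_mul, Matrix.mul_smul, one_mul, mul_one, c]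
      module

theorem ex_st (ht : Irreducible t) {ρ : GQ →* GL (Fin 2) A} (hd : ∀ g, (mr ρ g).det = 1)
    (hi : ∃ δ : A, δ ≠ 0 ∧ ∀ Z : M2 A, δ • Z ∈ Submodule.span A (mr ρ '' (Ginf : Set GQ)))
    {h : GQ} (hu : ¬ IsUnit (mr ρ h).trace) (h1 : mr ρ h ≠ 1) : ∃ σ e, ST t (mr ρ σ) e := by
  have t2 : (2 : A) = 0 := CharTwo.two_eq_zero
  have ns : ¬ (mr ρ h 0 1 = 0 ∧ mr ρ h 1 0 = 0 ∧ mr ρ h 0 0 - mr ρ h 1 1 = 0) := by
    rintro ⟨a, b, c⟩
    have d := hd h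
    rw [Matrix.det_fin_two, a, zero_mul, sub_zero] at d
    have e0 : (mr ρ h 0 0 - 1) ^ 2 = 0 := by
      linear_combination d + mr ρ h 0 0 * c + (1 - mr ρ h 0 0) * t2
    have e1 : mr ρ h 0 0 = 1 := sub_eq_zero.1 (pow_eq_zero_iff two_ne_zero |>.1 e0)
    refine h1 ?_
    ext i j
    fin_cases i <;> fin_cases j
    · simpa using e1
    · simpa using a
    · simpa using b
    · simpa using (sub_eq_zero.1 c).symm.trans e1
  by_cases h0 : (mr ρ h).trace = 0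
  · refine ⟨h, st_tr0 ht h0 ?_⟩
    by_contra hc
    push Not at hc
    exact ns ⟨hc.1, hc.2, diag_eq h0⟩
  have trW : ∀ g, (mr ρ g * mr ρ h * mr ρ g⁻¹ - mr ρ h).trace = 0 := fun g => by
    rw [Matrix.trace_sub, Matrix.trace_mul_comm, ← mul_assoc, mr_inv', one_mul, sub_self]
  by_cases hW : ∃ g, (mr ρ g * mr ρ h * mr ρ g⁻¹ - mr ρ h) 0 1 ≠ 0 ∨
      (mr ρ g * mr ρ h * mr ρ g⁻¹ - mr ρ h) 1 0 ≠ 0
  · obtain ⟨g, hg⟩ := hW
    obtain ⟨f, hf⟩ := st_tr0 ht (trW g) hg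
    obtain ⟨a, b, ha, hb, ⟨k, hk⟩, e⟩ := pow2 ht (hd h) h0 (tdvd ht hu) f
    obtain ⟨j, u, hj⟩ := IsDiscreteValuationRing.eq_unit_mul_pow_irreducible hb ht
    set W := mr ρ g * mr ρ h * mr ρ g⁻¹ - mr ρ h with hWd
    have ai : mr ρ (h ^ 2 ^ (f + 1))⁻¹ = a • (1 : M2 A) + b • (mr ρ h).adjugate := by
      have a1 := Matrix.adjugate_mul (mr ρ (h ^ 2 ^ (f + 1)))
      rw [hd, one_smul] at a1
      have a2 : mr ρ (h ^ 2 ^ (f + 1))⁻¹ = (mr ρ (h ^ 2 ^ (f + 1))).adjugate := by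
        rw [← one_mul (mr ρ _⁻¹), ← a1, mul_assoc, mr_inv, mul_one]
      rw [a2, mr_pow, e]
      ext i j
      fin_cases i <;> fin_cases j <;> simp [Matrix.adjugate_fin_two]
    have e1 : mr ρ g * mr ρ (h ^ 2 ^ (f + 1)) * mr ρ g⁻¹ = mr ρ (h ^ 2 ^ (f + 1)) + b • W := by
      rw [mr_pow, e, hWd]
      simp only [add_mul, mul_add, Matrix.smul_mul, Matrix.mul_smul, mul_one, mr_inv]
      module
    have e2 : mr ρ (g * h ^ 2 ^ (f + 1) * g⁻¹ * (h ^ 2 ^ (f + 1))⁻¹) =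
        1 + b • (a • W + t ^ (f + 1) • (k • (W * (mr ρ h).adjugate))) := by
      rw [mr_mul, mr_mul, mr_mul, e1, add_mul, mr_inv, ai, smul_smul, ← hk]
      simp only [mul_add, Matrix.smul_mul, Matrix.mul_smul, mul_one]
      module
    obtain ⟨y, z, w, s1, s2, s3, su⟩ := hf.lin ht 0 ha (k • (W * (mr ρ h).adjugate))
    rw [zero_smul, zero_add] at s1 s2 s3
    refine ⟨g * h ^ 2 ^ (f + 1) * g⁻¹ * (h ^ 2 ^ (f + 1))⁻¹, j + f, u * y, u * z, u * w, ?_, ?_, ?_,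
      su.imp (fun h => u.isUnit.mul h) fun h => u.isUnit.mul h⟩
    · rw [e2, Matrix.add_apply, Matrix.smul_apply, s1, hj]; simp; ring
    · rw [e2, Matrix.add_apply, Matrix.smul_apply, s2, hj]; simp; ring
    · rw [e2, Matrix.add_apply, Matrix.add_apply, Matrix.smul_apply, Matrix.smul_apply,
        Matrix.one_apply_eq, Matrix.one_apply_eq, smul_eq_mul, smul_eq_mul]
      linear_combination b * s3 + (t ^ (f + 1) * w) * hj
  push Not at hW
  have sc : ∀ g, ∃ c : A, mr ρ g * mr ρ h = mr ρ h * mr ρ g + c • mr ρ g := fun g => by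
    refine ⟨(mr ρ g * mr ρ h * mr ρ g⁻¹ - mr ρ h) 0 0, ?_⟩
    have e : mr ρ g * mr ρ h * mr ρ g⁻¹ - mr ρ h =
        (mr ρ g * mr ρ h * mr ρ g⁻¹ - mr ρ h) 0 0 • (1 : M2 A) := by
      ext i j
      fin_cases i <;> fin_cases j
      · simp
      · simpa using (hW g).1
      · simpa using (hW g).2
      · simpa using (sub_eq_zero.1 (diag_eq (trW g))).symm
    have e' := congrArg (· * mr ρ g) e
    simp only [sub_mul, mul_assoc, mr_inv', mul_one, Matrix.smul_mul, one_mul] at e'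
    rw [← mul_assoc] at e'
    rw [← e']; abel
  by_cases hc : ∃ g, mr ρ g * mr ρ h ≠ mr ρ h * mr ρ g
  · obtain ⟨g, hg⟩ := hc
    obtain ⟨c, e⟩ := sc g
    have c0 : c ≠ 0 := fun z => hg (by rw [e, z, zero_smul, add_zero])
    have e' := congrArg Matrix.trace e
    rw [Matrix.trace_add, Matrix.trace_mul_comm, Matrix.trace_smul, smul_eq_mul, left_eq_add,
      mul_eq_zero] at e'
    have g0 := e'.resolve_left c0
    refine ⟨g, st_tr0 ht g0 ?_⟩
    by_contra hn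
    push Not at hn
    refine hg ?_
    have d := sub_eq_zero.1 (diag_eq g0)
    ext i j
    fin_cases i <;> fin_cases j <;> simp [Matrix.mul_apply, Fin.sum_univ_two, hn.1, hn.2, d] <;>
      ring
  push Not at hc
  obtain ⟨δ, δ0, hδ⟩ := hi
  have cm : ∀ Z ∈ Submodule.span A (mr ρ '' (Ginf : Set GQ)), Z * mr ρ h = mr ρ h * Z := by
    intro Z hZ
    induction hZ using Submodule.span_induction with
    | mem x hx => obtain ⟨g, -, rfl⟩ := hx; exact hc g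
    | zero => simp
    | add x y _ _ a b => rw [add_mul, mul_add, a, b]
    | smul a x _ b => rw [Matrix.smul_mul, Matrix.mul_smul, b]
  have a := cm _ (hδ !![0, 1; 0, 0])
  have b := cm _ (hδ !![0, 0; 1, 0])
  have a0 := congrFun (congrFun a 0) 0
  have a1 := congrFun (congrFun a 0) 1
  have b0 := congrFun (congrFun b 0) 0
  simp [Matrix.mul_apply, Fin.sum_univ_two, δ0] at a0 a1 b0
  exact absurd ⟨b0, a0, mul_left_cancel₀ δ0 (by linear_combination -a1)⟩ ns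

open Vale.Agent.P022D.Sel.AuxP in
/-- **the prime `v₀`** -/
theorem prime0 (ht : Irreducible t) {ρ : GQ →* GL (Fin 2) A} {T : Finset ℕ} {D : ℕ → Set GQ}
    (hN : Nice t ρ T D) {h : GQ} (hu : ¬ IsUnit (mr ρ h).trace) (h1 : mr ρ h ≠ 1)
    (S : Finset ℕ) : ∃ (l : ℕ) (P : Ideal (𝓞 Qb)) (φ : GQ) (e : ℕ), l ∉ S ∧ l ≠ 2 ∧ Ov l P ∧
      Fb l P φ ∧ ST t (mr ρ φ) e := by
  classical
  obtain ⟨σ, e, hσ⟩ := ex_st ht hN.det hN.irr hu h1
  obtain ⟨q, φ, k, m, o, q1, q2, ⟨P, p1, p2, p3⟩, k1, -, m1, hv, -, -⟩ :=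
    key Vale.Agent.P027M.TW.dens (rd (tI t (e + 1)) ρ).ker (hN.lv (e + 1)).opn (insert 2 S) σ 3
      Nat.prime_three (by norm_num)
  refine ⟨q, P, φ, e, fun h => q2 (Finset.mem_insert_of_mem h),
    fun h => q2 (h ▸ Finset.mem_insert_self _ _), ⟨q1, p1, p2⟩, p3, ?_⟩
  have hv' : rd (tI t (e + 1)) ρ (φ⁻¹ * σ ^ (k * m))⁻¹ = 1 := (rd _ ρ).ker.inv_mem hv
  have hR : ∀ i j, ∃ r, mr ρ (φ⁻¹ * σ ^ (k * m))⁻¹ i j - (1 : M2 A) i j = t ^ (e + 1) * r := by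
    intro i j
    have e1 : Ideal.Quotient.mk (tI t (e + 1)) (mr ρ (φ⁻¹ * σ ^ (k * m))⁻¹ i j) =
        (1 : M2 (A ⧸ tI t (e + 1))) i j :=
      congrArg (fun Y : GL (Fin 2) (A ⧸ tI t (e + 1)) => (Y : M2 (A ⧸ tI t (e + 1))) i j) hv'
    have e2 : (1 : M2 (A ⧸ tI t (e + 1))) i j =
        Ideal.Quotient.mk (tI t (e + 1)) ((1 : M2 A) i j) := by
      simp only [Matrix.one_apply]; split_ifs <;> simp
    rw [e2, Ideal.Quotient.eq, Ideal.mem_span_singleton] at e1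
    exact e1
  choose r hr using hR
  have e3 : mr ρ (φ⁻¹ * σ ^ (k * m))⁻¹ = 1 + t ^ (e + 1) • Matrix.of r := by
    ext i j
    rw [Matrix.add_apply, Matrix.smul_apply, Matrix.of_apply, smul_eq_mul, ← hr]; ring
  have e4 : mr ρ φ = mr ρ σ ^ (k * m) * mr ρ (φ⁻¹ * σ ^ (k * m))⁻¹ := by
    rw [← mr_pow, ← mr_mul]; congr 1; group
  have := (hσ.odd ht (hN.det σ) (k1.mul m1)).lin ht 0 isUnit_one (mr ρ σ ^ (k * m) * Matrix.of r)
  rwa [zero_smul, zero_add, one_smul, ← Matrix.mul_smul, ← mul_one_add, ← e3, ← e4] at this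

/-- the element `h` from the residual shape -/
theorem ex_h (ht : Irreducible t) {ρ : GQ →* GL (Fin 2) A} (hd : ∀ g, (mr ρ g).det = 1)
    (hi : ∃ δ : A, δ ≠ 0 ∧ ∀ Z : M2 A, δ • Z ∈ Submodule.span A (mr ρ '' (Ginf : Set GQ)))
    (hs : ∀ g, (¬ IsUnit (mr ρ g 0 1) ∧ ¬ IsUnit (mr ρ g 1 0)) ∨
      (¬ IsUnit (mr ρ g 0 0) ∧ ¬ IsUnit (mr ρ g 1 1))) :
    ∃ h, ¬ IsUnit (mr ρ h).trace ∧ mr ρ h ≠ 1 := by
  by_cases ha : ∃ g, ¬ IsUnit (mr ρ g 0 0) ∧ ¬ IsUnit (mr ρ g 1 1)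
  · obtain ⟨g, h0, h1⟩ := ha
    refine ⟨g, ?_, fun e => h0 (by rw [e]; simp)⟩
    rw [Matrix.trace_fin_two]
    exact (IsLocalRing.maximalIdeal A).add_mem h0 h1
  have hs' : ∀ g, t ∣ mr ρ g 0 1 ∧ t ∣ mr ρ g 1 0 := fun g =>
    ((hs g).resolve_right fun h => ha ⟨g, h⟩).imp (tdvd ht) (tdvd ht)
  by_contra hn
  push Not at hn
  have cm : ∀ x y, mr ρ x * mr ρ y = mr ρ y * mr ρ x := fun x y => by
    have e := hn (x * y * (y * x)⁻¹) (fun hu => ?_)
    · rw [← mr_mul, ← mr_mul, ← inv_mul_cancel_right (x * y) (y * x), mr_mul, e, one_mul]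
    have a1 := Matrix.adjugate_mul (mr ρ (y * x))
    rw [hd, one_smul] at a1
    have ai : mr ρ (y * x)⁻¹ = (mr ρ (y * x)).adjugate := by
      rw [← one_mul (mr ρ _⁻¹), ← a1, mul_assoc, mr_inv, mul_one]
    obtain ⟨⟨b, hb⟩, ⟨c, hc⟩⟩ := hs' x
    obtain ⟨⟨b', hb'⟩, ⟨c', hc'⟩⟩ := hs' y
    refine ht.not_isUnit (isUnit_of_dvd_unit ?_ hu)
    rw [mr_mul, ai, mr_mul, mr_mul]
    simp only [Matrix.trace_fin_two, Matrix.mul_apply, Fin.sum_univ_two, Matrix.adjugate_fin_two,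
      Matrix.of_apply, Matrix.cons_val', Matrix.cons_val_zero, Matrix.cons_val_one,
      Matrix.cons_val_fin_one, hb, hc, hb', hc']
    have t2 : (2 : A) = 0 := CharTwo.two_eq_zero
    refine ⟨t * ((b * c' * (mr ρ y 1 1 * mr ρ x 1 1 + t * t * (c' * b)) +
      mr ρ x 0 0 * mr ρ y 0 0 * (c' * b)) + (c * b' * (mr ρ y 0 0 * mr ρ x 0 0 + t * t * (b' * c)) +
      mr ρ x 1 1 * mr ρ y 1 1 * (b' * c)) -
      (mr ρ x 0 0 * b' + b * mr ρ y 1 1) * (c' * mr ρ x 0 0 + mr ρ y 1 1 * c) -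
      (c * mr ρ y 0 0 + mr ρ x 1 1 * c') * (mr ρ y 0 0 * b + b' * mr ρ x 1 1)), ?_⟩
    linear_combination (mr ρ x 0 0 * mr ρ y 0 0 * mr ρ x 1 1 * mr ρ y 1 1) * t2
  obtain ⟨δ, δ0, hδ⟩ := hi
  have c1 : ∀ y, ∀ Z ∈ Submodule.span A (mr ρ '' (Ginf : Set GQ)), Z * mr ρ y = mr ρ y * Z := by
    intro y Z hZ
    induction hZ using Submodule.span_induction with
    | mem x hx => obtain ⟨g, -, rfl⟩ := hx; exact cm g y
    | zero => simp
    | add x y _ _ a b => rw [add_mul, mul_add, a, b]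
    | smul a x _ b => rw [Matrix.smul_mul, Matrix.mul_smul, b]
  have c2 : ∀ Z ∈ Submodule.span A (mr ρ '' (Ginf : Set GQ)),
      (δ • !![0, 1; 0, 0] : M2 A) * Z = Z * (δ • !![0, 1; 0, 0]) := by
    intro Z hZ
    induction hZ using Submodule.span_induction with
    | mem x hx => obtain ⟨g, -, rfl⟩ := hx; exact c1 g _ (hδ _)
    | zero => simp
    | add x y _ _ a b => rw [add_mul, mul_add, a, b]
    | smul a x _ b => rw [mul_smul_comm a, smul_mul_assoc a, b]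
  have a := congrFun (congrFun (c2 _ (hδ !![0, 0; 1, 0])) 0) 0
  simp [Matrix.mul_apply, Fin.sum_univ_two, δ0] at a

end P022G.Sel.St0
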