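import Vale.Agent.P022G.Sel.Defs
import Vale.Agent.P022G.Sel.Dual

/-!
# P022G, block Sel: the row DUAL
-/

set_option linter.all false

noncomputable section

namespace P022G.Sel

open Vale.Agent.P022G.Sel.H44

theorem dual_any {R : Type*} [CommRing R] [Finite R] (hs : Soc R) {ι : Type*} [Fintype ι]
    (S : Submodule R (ι → R)) :
    Nat.card {v : ι → R // ∀ s ∈ S, ∑ i, s i * v i = 0} * Nat.card S ≤
      Nat.card R ^ Fintype.card ι := by
  classical
  obtain ⟨s, hs0, hs⟩ := hs
  obtain ⟨ψ, hψ⟩ := (AddChar.exists_apply_ne_zero (α := R) (a := s)).2 hs0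
  let L : {v : ι → R // ∀ s ∈ S, ∑ i, s i * v i = 0} → ((ι → R) ⧸ S) →ₗ[R] R := fun v =>
    S.liftQ
      { toFun := fun x => ∑ i, x i * v.1 i
        map_add' := fun a b => by simp only [Pi.add_apply, add_mul, Finset.sum_add_distrib]
        map_smul' := fun a b => by
          simp only [Pi.smul_apply, smul_eq_mul, mul_assoc, RingHom.id_apply, Finset.mul_sum] }
      (fun x hx => v.2 x hx)
  have hL : ∀ v x, L v (S.mkQ x) = ∑ i, x i * v.1 i := fun _ _ => rfl
  let K : {v : ι → R // ∀ s ∈ S, ∑ i, s i * v i = 0} → AddChar ((ι → R) ⧸ S) ℂ := fun v =>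
    ψ.compAddMonoidHom (L v).toAddMonoidHom
  have hK : ∀ v x, K v (S.mkQ x) = ψ (∑ i, x i * v.1 i) := fun _ _ => rfl
  have hinj : Function.Injective K := by
    intro v w h
    apply Subtype.ext
    funext i
    by_contra hi
    obtain ⟨c, hc⟩ := hs _ (sub_ne_zero.2 hi)
    have e : ∀ u : ι → R, ∑ j, (Pi.single i c : ι → R) j * u j = c * u i := fun u => by
      rw [Finset.sum_eq_single i (fun j _ hj => by rw [Pi.single_eq_of_ne hj, zero_mul])
        (fun hh => absurd (Finset.mem_univ i) hh), Pi.single_eq_same]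
    have h1 := hK v (Pi.single i c)
    rw [h, hK, e, e] at h1
    have h2 : c * v.1 i = s + c * w.1 i := by rw [hc]; ring
    rw [h2, AddChar.map_add_eq_mul] at h1
    have h3 : ψ (c * w.1 i) ≠ 0 := (AddChar.val_isUnit ψ _).ne_zero
    exact hψ (mul_right_cancel₀ h3 (by rw [← h1, one_mul]))
  haveI : Finite ((ι → R) ⧸ S) := Finite.of_surjective _ S.mkQ_surjective
  haveI := Fintype.ofFinite ((ι → R) ⧸ S)
  have h1 := Nat.card_le_card_of_injective K hinj
  rw [Nat.card_eq_fintype_card (α := AddChar _ _), AddChar.card_eq,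
    ← Nat.card_eq_fintype_card] at h1
  have h2 := Submodule.card_eq_card_quotient_mul_card S
  rw [Nat.card_fun, Nat.card_eq_fintype_card (α := ι)] at h2
  rw [h2, mul_comm]
  exact Nat.mul_le_mul_left _ h1

theorem dualC : DUAL := by
  intro A _ _ _ x _ I _ S
  by_cases hx : x = 0
  · exfalso
    subst hx
    have hb : (Ideal.span {(0 : A)}) = ⊥ := Ideal.span_singleton_zero
    haveI : Finite A := Finite.of_injective (Ideal.Quotient.mk (Ideal.span {(0 : A)}))
      ((RingHom.injective_iff_ker_eq_bot _).2 (by rw [Ideal.mk_ker, hb]))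
    exact IsDiscreteValuationRing.not_isField A (Finite.isField_of_domain A)
  obtain ⟨t, ht⟩ := IsDiscreteValuationRing.exists_irreducible A
  obtain ⟨n, u, hu⟩ := IsDiscreteValuationRing.eq_unit_mul_pow_irreducible hx ht
  have hI : Ideal.span {x} = Ideal.span {t ^ n} := by
    rw [hu]; exact Ideal.span_singleton_mul_left_unit u.isUnit _
  rcases Nat.eq_zero_or_pos n with hn | hn
  · haveI : Subsingleton (A ⧸ Ideal.span {x}) := by
      rw [Ideal.Quotient.subsingleton_iff, hI, hn, pow_zero, Ideal.span_singleton_one]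
    have h1 : Nat.card {v : I → A ⧸ Ideal.span {x} // ∀ s ∈ S, ∑ i, s i * v i = 0} ≤ 1 :=
      Finite.card_le_one_iff_subsingleton.2 inferInstance
    have h2 : Nat.card S ≤ 1 := Finite.card_le_one_iff_subsingleton.2 inferInstance
    calc _ ≤ 1 * 1 := Nat.mul_le_mul h1 h2
      _ ≤ _ := Nat.one_le_pow _ _ Nat.card_pos
  · refine dual_any ?_ S
    rw [hI]
    exact soc_quot ht hn

end P022G.Sel
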